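import Vale.Agent.P281.H349.U.Nc

/-!
# P281, project T-U: the series of the `r + 1` forms have independent quotients
-/

open scoped Topology ContDiff
open Set Filter Module Metric

namespace Vale.Agent.P281.H349.U

open Vale.Agent.P281 Vale.Agent.P281.H713

set_option linter.unusedSectionVars false

section Limit

variable {d g n r : ℕ} {V : Type} [NormedAddCommGroup V] [InnerProductSpace ℂ V]
  [FiniteDimensional ℂ V] {Q : (Fin n → ℝ) → (Fin n → ℝ) → ℝ}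
  {π₀ : (Fin n → ℝ) ≃L[ℝ] V} {G₀ : V ≃L[ℂ] V}
  {e : Basis (Fin g) ℂ V} {i₀ : Fin g → Fin d} {l : Fin g → List (Fin d)}
  {m : Fm d V} {k D : ℕ} {Ψ : ((Fin d → ℂ) → V) → (Fin d → ℂ) → ℂ}

/-- the factor of the series coming from the units which fix the Gauss map -/
noncomputable def Sf (e : Basis (Fin g) ℂ V) (i₀ : Fin g → Fin d) (l : Fin g → List (Fin d))
    (m : Fm d V) (π₀ : (Fin n → ℝ) ≃L[ℝ] V) (G₀ : V ≃L[ℂ] V) (𝒰 : Finset (spq Q)) (k : ℕ)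
    (h : (Fin d → ℂ) → V) (v : Fin d → ℂ) : ℂ :=
  ∑ M ∈ 𝒰, (KU e i₀ l m (fun u => Cc π₀ G₀ M (h u)) v / KU e i₀ l m h v) ^ k

/-- the quotient of the generalized Wronskians in a tube -/
theorem quot_le (h₀ : IsPol Q π₀ G₀) {h : (Fin d → ℂ) → V} {v : Fin d → ℂ}
    (hh : ContDiffAt ℂ ω h v) {R₀ c : ℝ} (hm : ‖m‖ ≤ R₀) (hKU : KU e i₀ l m h v ≠ 0)
    (htube : ∀ m' : Fm d V, ‖m'‖ ≤ R₀ → ‖KU e i₀ l m' h v‖ ≤ c * ‖KU e i₀ l m h v‖)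
    {M : spq Q} (hM : ‖(LL π₀ π₀ (mx M)).det‖ = 1) :
    ‖KU e i₀ l m (fun u => Cc π₀ G₀ M (h u)) v / KU e i₀ l m h v‖ ≤ c := by
  rw [norm_div, div_le_iff₀ (norm_pos_iff.2 hKU), KU_map m hh, norm_mul, Cc_det h₀, hM, inv_one,
    one_mul]
  exact htube _ ((norm_fcomp_le (Cc_norm h₀ M)).trans hm)

/-- the main asymptotic statement -/
theorem nc_limit (hn : 0 < n) (h₀ : IsPol Q π₀ G₀) {h : (Fin d → ℂ) → V} {v₁ : Fin d → ℂ}
    (hh : ContDiffAt ℂ ω h v₁) {t : Fin (r + 1) → Fm d V}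
    (ht : LinearIndependent ℂ (jets (fun j => minor (t j) h) v₁)) (ht0 : minor (t 0) h v₁ ≠ 0)
    (hgen : ∀ M ∈ unitF hn h₀, (∀ᶠ w in 𝓝 v₁, ∀ i, qrel (Cc π₀ G₀ M) h i w = 0) ∨
        ∃ i, qrel (Cc π₀ G₀ M) h i v₁ ≠ 0) {R₀ : ℝ} (hm : ‖m‖ ≤ R₀)
    (hm0 : KU e i₀ l m h v₁ ≠ 0)
    (hmax : ∀ m' : Fm d V, ‖m'‖ ≤ R₀ → ‖KU e i₀ l m' h v₁‖ ≤ ‖KU e i₀ l m h v₁‖) :
    ∃ (k D : ℕ) (Ψ : Fin (r + 1) → ((Fin d → ℂ) → V) → (Fin d → ℂ) → ℂ),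
      (∀ j, IsHP D (Ψ j)) ∧ 0 < D ∧ 2 * (n * n + 1) ≤ k ∧
      ∑' M : spq Q, tu e i₀ l m k (Ψ 0) (fun u => Cc π₀ G₀ M (h u)) v₁ ≠ 0 ∧
      ∀ c : Fin r → ℂ, (∀ ξ, ∑ j, c j * fderiv ℂ (fun w =>
        (∑' M : spq Q, tu e i₀ l m k (Ψ j.succ) (fun u => Cc π₀ G₀ M (h u)) w) /
          ∑' M : spq Q, tu e i₀ l m k (Ψ 0) (fun u => Cc π₀ G₀ M (h u)) w) v₁ ξ = 0) → c = 0 := by
  classical
  have hn' : (ω : WithTop ℕ∞) ≠ 0 := by simp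
  obtain ⟨o, ho, hord⟩ := exists_order hn h₀
  obtain ⟨k', c₂, hk'0, hc2, hnu⟩ := nonunit_bound hn h₀
  obtain ⟨c, hc1, hcc⟩ : ∃ c : ℝ, 1 < c ∧ c * c = c₂ := by
    refine ⟨Real.sqrt c₂, ?_, Real.mul_self_sqrt (by linarith)⟩
    rw [Real.lt_sqrt zero_le_one]
    simpa using hc2
  have hc0 : 0 < c := by linarith
  rw [← hcc] at hnu
  obtain ⟨D, Φ, hD0, hoD, hΦ, hΦ0, hΦc, hfac⟩ := psi_exists hn h₀ hh ht0 hgen ho
  set Ψ : Fin (r + 1) → ((Fin d → ℂ) → V) → (Fin d → ℂ) → ℂ := fun j H v =>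
    minor (t j) H v * Φ H v with hΨdef
  have hΨ : ∀ j, IsHP D (Ψ j) := fun j => hΦ (t j)
  set 𝒰₁ : Finset (spq Q) := (unitF hn h₀).filter
    (fun M => ∀ᶠ w in 𝓝 v₁, ∀ i, qrel (Cc π₀ G₀ M) h i w = 0) with h𝒰₁
  set 𝒰₂ : Finset (spq Q) := (unitF hn h₀).filter
    (fun M => ¬ ∀ᶠ w in 𝓝 v₁, ∀ i, qrel (Cc π₀ G₀ M) h i w = 0) with h𝒰₂
  have hU1 : ∀ M ∈ 𝒰₁, ‖(LL π₀ π₀ (mx M)).det‖ = 1 := fun M hM =>
    (mem_unitF hn h₀).1 (Finset.mem_filter.1 hM).1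
  have hβ : ∀ M : spq Q, ∃ β : ℂ, M ∈ 𝒰₁ → β ^ o = 1 ∧ ∀ᶠ w in 𝓝 v₁, ∀ m,
      minor m (fun u => Cc π₀ G₀ M (h u)) w = β * minor m h w := by
    intro M
    by_cases hM : M ∈ 𝒰₁
    · obtain ⟨h1, h2⟩ := Finset.mem_filter.1 hM
      obtain ⟨β, h3, h4⟩ := unit_fix hn h₀ hh ht0 h1 ho (hord M h1) h2
      exact ⟨β, fun _ => ⟨h3, h4⟩⟩
    · exact ⟨1, fun h => absurd h hM⟩
  choose β hβ using hβ
  have h1U : (1 : spq Q) ∈ 𝒰₁ := by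
    refine Finset.mem_filter.2 ⟨one_mem_unitF hn h₀, Eventually.of_forall fun w i => ?_⟩
    unfold qrel
    rw [Cc_one]
    show minor i.1 h w * minor i.2 h w - minor i.2 h w * minor i.1 h w = 0
    ring
  set n₁ : ℝ := (𝒰₁.card : ℝ) with hn₁
  have hn₁0 : 0 ≤ n₁ := Nat.cast_nonneg _
  -- the limit jets
  set a : Fin (r + 1) → (Fin d → ℂ) → ℂ := fun j w => minor (t j) h w * Φ h w with ha
  have hmd : ∀ j, DifferentiableAt ℂ (minor (t j) h) v₁ := fun j =>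
    (minor_contDiffAt (t j) hh).differentiableAt hn'
  have hX₀i : LinearIndependent ℂ (jets a v₁) :=
    jets_mul ht hmd (hΦc.differentiableAt hn') hΦ0
  obtain ⟨ε₁, hε₁, hind⟩ := jets_near hX₀i
  have ha0 : a 0 v₁ ≠ 0 := mul_ne_zero ht0 hΦ0
  have hx0 : 0 < ‖a 0 v₁‖ := norm_pos_iff.2 ha0
  set ε : ℝ := min ε₁ ‖a 0 v₁‖ with hε
  have hε0 : 0 < ε := lt_min hε₁ hx0
  -- the neighbourhood
  set L : ℝ := ‖fderiv ℂ h v₁‖ + 1 with hL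
  have hfdc : ContinuousAt (fderiv ℂ h) v₁ := (hh.fderiv_right (m := ω) (by simp)).continuousAt
  have hKc := KU_cd' (e := e) (i₀ := i₀) (l := l) hh m
  obtain ⟨ρ, hρ, hball⟩ := Metric.eventually_nhds_iff_ball.1
    ((hh.eventually (by simp)).and ((hKc.continuousAt.eventually_ne hm0).and
    ((tube (e := e) (i₀ := i₀) (l := l) hh hm0 hmax hc1).and
    ((hfdc.norm.eventually_lt_const (show ‖fderiv ℂ h v₁‖ < L by rw [hL]; linarith)).and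
    ((Finset.eventually_all 𝒰₁).2 fun M hM => eventually_eventually_nhds.2 (hβ M hM).2)))))
  obtain ⟨R, hR0, hR⟩ := minor_le (d := d) (V := V) zero_le_one (show 0 ≤ L by positivity)
  choose K hK0 hK using fun j => (hΨ j).bdd R
  set K₃ : ℝ := ∑ j, K j with hK₃
  have hKK₃ : ∀ j, K j ≤ K₃ := fun j =>
    Finset.single_le_sum (f := K) (fun i _ => hK0 i) (Finset.mem_univ j)
  have hK₃0 : 0 ≤ K₃ := Finset.sum_nonneg fun i _ => hK0 i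
  set κ : (Fin d → ℂ) → ℂ := fun v => KU e i₀ l m h v with hκ
  have hv₁ : v₁ ∈ ball v₁ ρ := mem_ball_self hρ
  -- the quotients
  set z : spq Q → (Fin d → ℂ) → ℂ := fun M v =>
    KU e i₀ l m (fun u => Cc π₀ G₀ M (h u)) v / κ v with hz
  have hz1 : ∀ M ∈ 𝒰₁, ‖z M v₁‖ ≤ 1 := fun M hM =>
    quot_le h₀ hh hm hm0 (fun m' hm' => by rw [one_mul]; exact hmax m' hm') (hU1 M hM)
  have hzc : ∀ M ∈ 𝒰₁, ∀ v ∈ ball v₁ ρ, ‖z M v‖ ≤ c := fun M hM v hv =>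
    quot_le h₀ (hball v hv).1 hm (hball v hv).2.1 (hball v hv).2.2.1 (hU1 M hM)
  have hz11 : z 1 v₁ = 1 := by
    rw [hz]
    simp only [Cc_one]
    exact div_self hm0
  -- the exponent
  obtain ⟨j, hj1, hj2, hj3⟩ : ∃ j : ℕ, 2 * (n * n + 1) ≤ j ∧
      K₃ * errT hn h₀ (k' * (o * j)) * (2 + (2 + 4 * n₁) * ρ⁻¹) < ε ∧
      1 / 2 ≤ ‖∑ M ∈ 𝒰₁, (z M v₁ ^ (2 * k' * o)) ^ j‖ := by
    have h1 : Tendsto (fun j => k' * (o * j)) atTop atTop :=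
      (tendsto_id.const_mul_atTop' ho).const_mul_atTop' hk'0
    have h2 := (((errT_tendsto hn h₀).comp h1).const_mul K₃).mul_const (2 + (2 + 4 * n₁) * ρ⁻¹)
    rw [mul_zero, zero_mul] at h2
    obtain ⟨N, hN⟩ := Filter.eventually_atTop.1 ((eventually_ge_atTop (2 * (n * n + 1))).and
      (h2.eventually (gt_mem_nhds hε0)))
    obtain ⟨j, h3, h4⟩ := pow_sum_large 𝒰₁ (fun M => z M v₁ ^ (2 * k' * o))
      (fun M hM => by
        rw [norm_pow]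
        exact pow_le_one₀ (norm_nonneg _) (hz1 M hM)) h1U (by
        show z 1 v₁ ^ (2 * k' * o) = 1
        rw [hz11, one_pow]) N
    exact ⟨j, (hN j h3).1, (hN j h3).2, h4⟩
  set N := k' * (o * j) with hN
  set k := 2 * k' * (o * j) with hk
  have hjN : j ≤ N := by
    rw [hN, ← mul_assoc]
    exact Nat.le_mul_of_pos_left _ (Nat.mul_pos hk'0 ho)
  have hN2 : 2 * (n * n + 1) ≤ N := hj1.trans hjN
  have hkN : k = 2 * N := by rw [hk, hN]; ring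
  have hk2 : 2 * (n * n + 1) ≤ k := by omega
  have herr0 : 0 ≤ errT hn h₀ N := tsum_nonneg fun M => by split_ifs <;> positivity
  set η : ℝ := K₃ * errT hn h₀ N with hη
  have hη0 : 0 ≤ η := mul_nonneg hK₃0 herr0
  have hck : 1 ≤ c ^ k := one_le_pow₀ hc1.le
  have hck0 : 0 < c ^ k := by linarith
  set η' : ℝ := η * (c ^ k)⁻¹ with hη'
  have hη'0 : 0 ≤ η' := by positivity
  have hη'η : η' ≤ η := mul_le_of_le_one_right hη0 (inv_le_one_of_one_le₀ hck)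
  set S : (Fin d → ℂ) → ℂ := fun v => ∑ M ∈ 𝒰₁, z M v ^ k with hS
  have hS12 : 1 / 2 ≤ ‖S v₁‖ := by
    have h1 : S v₁ = ∑ M ∈ 𝒰₁, (z M v₁ ^ (2 * k' * o)) ^ j := by
      rw [hS]
      refine Finset.sum_congr rfl fun M _ => ?_
      rw [← pow_mul, hk]
      ring
    rw [h1]
    exact hj3
  have hS0 : S v₁ ≠ 0 := by
    intro h1
    rw [h1, norm_zero] at hS12
    norm_num at hS12
  set s : Fin (r + 1) → (Fin d → ℂ) → ℂ := fun j v =>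
    ∑' M : spq Q, tu e i₀ l m k (Ψ j) (fun u => Cc π₀ G₀ M (h u)) v with hs
  set Er : Fin (r + 1) → (Fin d → ℂ) → ℂ := fun j v =>
    ∑ M ∈ 𝒰₂, tu e i₀ l m k (Ψ j) (fun u => Cc π₀ G₀ M (h u)) v / κ v ^ k with hEr
  set Rr : Fin (r + 1) → (Fin d → ℂ) → ℂ := fun j v =>
    s j v / κ v ^ k - (S v * a j v + Er j v) with hRr
  have hb1 : ∀ v ∈ ball v₁ ρ, ContDiffAt ℂ ω h v := fun v hv => (hball v hv).1
  have hb2 : ∀ v ∈ ball v₁ ρ, κ v ≠ 0 := fun v hv => (hball v hv).2.1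
  have hκc : ∀ v ∈ ball v₁ ρ, ContDiffAt ℂ ω κ v := fun v hv =>
    KU_cd' (e := e) (i₀ := i₀) (l := l) (hb1 v hv) m
  have hκk : ∀ v ∈ ball v₁ ρ, ContDiffAt ℂ ω (fun v => (κ v ^ k)⁻¹) v := fun v hv =>
    ((hκc v hv).pow k).inv (pow_ne_zero _ (hb2 v hv))
  have hzd : ∀ M, ∀ v ∈ ball v₁ ρ, ContDiffAt ℂ ω (z M) v := by
    intro M v hv
    exact (KU_cd' (e := e) (i₀ := i₀) (l := l) (cd_map (hb1 v hv) (Cc π₀ G₀ M)) m).div
      (hκc v hv) (hb2 v hv)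
  have hSc : ∀ v ∈ ball v₁ ρ, ContDiffAt ℂ ω S v := fun v hv =>
    ContDiffAt.sum fun M _ => (hzd M v hv).pow k
  have hsc : ∀ j, ∀ v ∈ ball v₁ ρ, ContDiffAt ℂ ω (s j) v := fun j v hv =>
    s_cd hn (by omega) (hΨ j) h₀ (hb1 v hv)
  have hac : ∀ j, ∀ v ∈ ball v₁ ρ, ContDiffAt ℂ ω (a j) v :=
    fun j v hv => hp_cd (hΨ j) (hb1 v hv)
  have hErc : ∀ j, ∀ v ∈ ball v₁ ρ, ContDiffAt ℂ ω (Er j) v := by
    intro j v hv
    refine ContDiffAt.sum fun M _ => ?_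
    have h1 := (tu_cd (e := e) (i₀ := i₀) (l := l) (m := m) (k := k) (hΨ j)
      (cd_map (hb1 v hv) (Cc π₀ G₀ M))).mul (hκk v hv)
    simpa only [div_eq_mul_inv] using h1
  have hRrc : ∀ j, ∀ v ∈ ball v₁ ρ, ContDiffAt ℂ ω (Rr j) v := by
    intro j v hv
    have h1 := (hsc j v hv).mul (hκk v hv)
    have h3 := h1.sub (((hSc v hv).mul (hac j v hv)).add (hErc j v hv))
    simpa only [hRr, div_eq_mul_inv] using h3
  -- the remainder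
  have hRb : ∀ j, ∀ v ∈ ball v₁ ρ, ‖Rr j v‖ ≤ η' := by
    intro j v hv
    obtain ⟨g1, g2, g3, g4, g5⟩ := hball v hv
    have h1 := tail_bound (e := e) (i₀ := i₀) (l := l) (m := m) (Ψ := Ψ j) (k' := k')
      (j := o * _) hn h₀ g1 hm g3
      (fun m hm => hR m h v hm g4.le) (hK j) hc0 hnu hN2
    have hκ0 : κ v ^ k ≠ 0 := pow_ne_zero _ g2
    have h2 : ∑ M ∈ unitF hn h₀, tu e i₀ l m k (Ψ j) (fun u => Cc π₀ G₀ M (h u)) v =
        κ v ^ k * (S v * a j v + Er j v) := by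
      rw [← Finset.sum_filter_add_sum_filter_not (unitF hn h₀)
        (fun M => ∀ᶠ w in 𝓝 v₁, ∀ i, qrel (Cc π₀ G₀ M) h i w = 0), mul_add]
      congr 1
      · rw [hS]
        simp only [Finset.sum_mul, Finset.mul_sum]
        refine Finset.sum_congr rfl fun M hM => ?_
        have h3 : Ψ j (fun u => Cc π₀ G₀ M (h u)) v = Ψ j h v := by
          obtain ⟨b, hb⟩ := hoD
          rw [(hΨ j).scale h _ v v (β M) (g5 M hM).self_of_nhds, hb, pow_mul, (hβ M hM).1,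
            one_pow, one_mul]
        unfold tu
        rw [h3, hz]
        show _ = κ v ^ k * ((KU e i₀ l m (fun u => Cc π₀ G₀ M (h u)) v / κ v) ^ k * a j v)
        rw [div_pow]
        field_simp
        rfl
      · rw [hEr]
        simp only [Finset.mul_sum]
        refine Finset.sum_congr rfl fun M _ => ?_
        field_simp
    rw [← hk, h2] at h1
    have h3 : Rr j v = (s j v - κ v ^ k * (S v * a j v + Er j v)) / κ v ^ k := by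
      rw [hRr]
      field_simp
    rw [h3, norm_div, div_le_iff₀ (norm_pos_iff.2 hκ0)]
    refine h1.trans ?_
    rw [hη', hη, norm_pow]
    have h5 : 0 ≤ ‖κ v‖ ^ k := by positivity
    calc K j * ‖κ v‖ ^ k * (c ^ k)⁻¹ * errT hn h₀ N ≤
          K₃ * ‖κ v‖ ^ k * (c ^ k)⁻¹ * errT hn h₀ N := by
          gcongr
          exact hKK₃ j
      _ = K₃ * errT hn h₀ N * (c ^ k)⁻¹ * ‖κ v‖ ^ k := by ring
  have hRd : ∀ j, ‖fderiv ℂ (Rr j) v₁‖ ≤ η' / ρ := fun j =>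
    MF.norm_fderiv_le_of_ball hρ (fun v hv =>
      ((hRrc j v hv).differentiableAt hn').differentiableWithinAt) (hRb j)
  have hSd : ‖fderiv ℂ S v₁‖ ≤ n₁ * c ^ k / ρ := by
    refine MF.norm_fderiv_le_of_ball hρ (fun v hv =>
      ((hSc v hv).differentiableAt hn').differentiableWithinAt) fun v hv => ?_
    calc ‖S v‖ ≤ ∑ _M ∈ 𝒰₁, c ^ k := by
          refine norm_sum_le_of_le _ fun M hM => ?_
          rw [norm_pow]
          exact pow_le_pow_left₀ (norm_nonneg _) (hzc M hM v hv) k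
      _ = n₁ * c ^ k := by rw [Finset.sum_const, nsmul_eq_mul]
  -- the units which move the point
  have hE0 : ∀ j, HasFDerivAt (Er j) (0 : (Fin d → ℂ) →L[ℂ] ℂ) v₁ ∧ Er j v₁ = 0 := by
    intro j
    have h1 : ∀ M ∈ 𝒰₂, ∃ A B : (Fin d → ℂ) → ℂ, ContDiffAt ℂ ω A v₁ ∧ ContDiffAt ℂ ω B v₁ ∧
        B v₁ = 0 ∧ ∀ v, tu e i₀ l m k (Ψ j) (fun u => Cc π₀ G₀ M (h u)) v / κ v ^ k =
          A v * B v ^ 2 := by
      intro M hM
      obtain ⟨h2, h3⟩ := Finset.mem_filter.1 hM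
      obtain ⟨A, B, hA, hB, hB0, hAB⟩ := hfac M h2 h3
      have hhM := cd_map hh (Cc π₀ G₀ M)
      refine ⟨fun v => KU e i₀ l m (fun u => Cc π₀ G₀ M (h u)) v ^ k *
        minor (t j) (fun u => Cc π₀ G₀ M (h u)) v * (κ v ^ k)⁻¹ * A v, B, ?_, hB, hB0,
        fun v => ?_⟩
      · exact ((((KU_cd' (e := e) (i₀ := i₀) (l := l) hhM m).pow k).mul
          (minor_contDiffAt (t j) hhM)).mul (hκk v₁ hv₁)).mul hA
      · unfold tu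
        show KU e i₀ l m (fun u => Cc π₀ G₀ M (h u)) v ^ k *
          (minor (t j) (fun u => Cc π₀ G₀ M (h u)) v * Φ (fun u => Cc π₀ G₀ M (h u)) v) /
          κ v ^ k = _
        rw [hAB v, div_eq_mul_inv]
        ring
    constructor
    · have h2 : HasFDerivAt (Er j) (∑ M ∈ 𝒰₂, (0 : (Fin d → ℂ) →L[ℂ] ℂ)) v₁ := by
        refine HasFDerivAt.fun_sum fun M hM => ?_
        obtain ⟨A, B, hA, hB, hB0, hAB⟩ := h1 M hM
        have h3 := jet_sq (hA.differentiableAt hn') (hB.differentiableAt hn') hB0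
        have h4 : (fun v => tu e i₀ l m k (Ψ j) (fun u => Cc π₀ G₀ M (h u)) v / κ v ^ k) =
            fun v => A v * B v ^ 2 := funext hAB
        rw [h4]
        exact h3
      rwa [Finset.sum_const_zero] at h2
    · refine Finset.sum_eq_zero fun M hM => ?_
      obtain ⟨A, B, hA, hB, hB0, hAB⟩ := h1 M hM
      show tu e i₀ l m k (Ψ j) (fun u => Cc π₀ G₀ M (h u)) v₁ / κ v₁ ^ k = 0
      rw [hAB v₁, hB0]
      simp
  -- the normalized series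
  have hSi : HasFDerivAt (fun v => (S v)⁻¹) (-(S v₁ ^ 2)⁻¹ • fderiv ℂ S v₁) v₁ := by
    have h1 := ((hSc v₁ hv₁).differentiableAt hn').hasFDerivAt
    have h2 := (hasDerivAt_inv hS0).comp_hasFDerivAt v₁ h1
    exact h2
  have hSi1 : ‖(S v₁)⁻¹‖ ≤ 2 := by
    rw [norm_inv]
    calc (‖S v₁‖)⁻¹ ≤ (1 / 2)⁻¹ := inv_anti₀ (by norm_num) hS12
      _ = 2 := by norm_num
  have hSi2 : ‖-(S v₁ ^ 2)⁻¹ • fderiv ℂ S v₁‖ ≤ 4 * (n₁ * c ^ k / ρ) := by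
    rw [norm_smul, norm_neg, norm_inv, norm_pow, ← inv_pow, ← norm_inv]
    refine mul_le_mul ?_ hSd (norm_nonneg _) (by norm_num)
    calc ‖(S v₁)⁻¹‖ ^ 2 ≤ 2 ^ 2 := pow_le_pow_left₀ (norm_nonneg _) hSi1 2
      _ = 4 := by norm_num
  set u : Fin (r + 1) → (Fin d → ℂ) → ℂ := fun j v =>
    a j v + Er j v * (S v)⁻¹ + Rr j v * (S v)⁻¹ with hu
  set T : Fin (r + 1) → ((Fin d → ℂ) →L[ℂ] ℂ) := fun j =>
    Rr j v₁ • (-(S v₁ ^ 2)⁻¹ • fderiv ℂ S v₁) + (S v₁)⁻¹ • fderiv ℂ (Rr j) v₁ with hT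
  have hufd : ∀ j, HasFDerivAt (u j) (fderiv ℂ (a j) v₁ + T j) v₁ := by
    intro j
    have h1 := ((hac j v₁ hv₁).differentiableAt hn').hasFDerivAt
    have h2 := (hE0 j).1.mul hSi
    have h3 := ((hRrc j v₁ hv₁).differentiableAt hn').hasFDerivAt.mul hSi
    have h4 := (h1.add h2).add h3
    refine h4.congr_fderiv (ContinuousLinearMap.ext fun ξ => ?_)
    show fderiv ℂ (a j) v₁ ξ + (Er j v₁ * ((-(S v₁ ^ 2)⁻¹ • fderiv ℂ S v₁) ξ) +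
        (S v₁)⁻¹ * 0) + (Rr j v₁ * ((-(S v₁ ^ 2)⁻¹ • fderiv ℂ S v₁) ξ) +
        (S v₁)⁻¹ * fderiv ℂ (Rr j) v₁ ξ) = fderiv ℂ (a j) v₁ ξ +
      (Rr j v₁ * ((-(S v₁ ^ 2)⁻¹ • fderiv ℂ S v₁) ξ) + (S v₁)⁻¹ * fderiv ℂ (Rr j) v₁ ξ)
    rw [(hE0 j).2]
    ring
  have hu0 : ∀ j, u j v₁ = a j v₁ + Rr j v₁ * (S v₁)⁻¹ := by
    intro j
    show a j v₁ + Er j v₁ * (S v₁)⁻¹ + Rr j v₁ * (S v₁)⁻¹ = _
    rw [(hE0 j).2, zero_mul, add_zero]
  have hRv : ∀ j, ‖Rr j v₁ * (S v₁)⁻¹‖ ≤ 2 * η := by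
    intro j
    rw [norm_mul, mul_comm]
    exact mul_le_mul hSi1 ((hRb j v₁ hv₁).trans hη'η) (norm_nonneg _) (by norm_num)
  have hTb : ∀ j, ‖T j‖ ≤ (2 + 4 * n₁) * ρ⁻¹ * η := by
    intro j
    refine (norm_add_le _ _).trans ?_
    have h1 : ‖Rr j v₁ • (-(S v₁ ^ 2)⁻¹ • fderiv ℂ S v₁)‖ ≤ 4 * n₁ * ρ⁻¹ * η := by
      rw [norm_smul]
      calc ‖Rr j v₁‖ * ‖-(S v₁ ^ 2)⁻¹ • fderiv ℂ S v₁‖ ≤ η' * (4 * (n₁ * c ^ k / ρ)) :=
            mul_le_mul (hRb j v₁ hv₁) hSi2 (norm_nonneg _) hη'0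
        _ = 4 * n₁ * ρ⁻¹ * η * ((c ^ k)⁻¹ * c ^ k) := by
            rw [hη', div_eq_mul_inv]
            ring
        _ = 4 * n₁ * ρ⁻¹ * η := by rw [inv_mul_cancel₀ hck0.ne', mul_one]
    have h2 : ‖(S v₁)⁻¹ • fderiv ℂ (Rr j) v₁‖ ≤ 2 * ρ⁻¹ * η := by
      rw [norm_smul]
      have h3 : η' / ρ ≤ ρ⁻¹ * η := by
        rw [div_eq_mul_inv, mul_comm]
        exact mul_le_mul_of_nonneg_left hη'η (by positivity)
      calc ‖(S v₁)⁻¹‖ * ‖fderiv ℂ (Rr j) v₁‖ ≤ 2 * (ρ⁻¹ * η) :=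
            mul_le_mul hSi1 ((hRd j).trans h3) (norm_nonneg _) (by norm_num)
        _ = 2 * ρ⁻¹ * η := by ring
    calc _ ≤ 4 * n₁ * ρ⁻¹ * η + 2 * ρ⁻¹ * η := add_le_add h1 h2
      _ = (2 + 4 * n₁) * ρ⁻¹ * η := by ring
  have hηρ : 2 * η < ε ∧ (2 + 4 * n₁) * ρ⁻¹ * η < ε := by
    have h1 : 0 ≤ (2 + 4 * n₁) * ρ⁻¹ * η := by positivity
    have h2 : K₃ * errT hn h₀ N * (2 + (2 + 4 * n₁) * ρ⁻¹) =
        2 * η + (2 + 4 * n₁) * ρ⁻¹ * η := by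
      rw [hη]
      ring
    rw [h2] at hj2
    constructor <;> linarith
  have hud : ∀ j, DifferentiableAt ℂ (u j) v₁ := fun j => (hufd j).differentiableAt
  have hXi : LinearIndependent ℂ fun j =>
      ((u j v₁, fderiv ℂ (u j) v₁) : ℂ × ((Fin d → ℂ) →L[ℂ] ℂ)) := by
    refine hind _ fun j => ?_
    have h1 : ((u j v₁, fderiv ℂ (u j) v₁) : ℂ × ((Fin d → ℂ) →L[ℂ] ℂ)) - jets a v₁ j =
        (Rr j v₁ * (S v₁)⁻¹, T j) := by
      refine Prod.ext ?_ ?_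
      · show u j v₁ - a j v₁ = Rr j v₁ * (S v₁)⁻¹
        rw [hu0]
        ring
      · show fderiv ℂ (u j) v₁ - fderiv ℂ (a j) v₁ = T j
        rw [(hufd j).fderiv, add_sub_cancel_left]
    rw [h1]
    refine max_lt ?_ ?_
    · exact ((hRv j).trans_lt hηρ.1).trans_le (min_le_left _ _)
    · exact ((hTb j).trans_lt hηρ.2).trans_le (min_le_left _ _)
  have hu00 : u 0 v₁ ≠ 0 := by
    intro h0
    have h1 := hu0 0
    rw [h0] at h1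
    have h2 : ‖a 0 v₁‖ = ‖Rr 0 v₁ * (S v₁)⁻¹‖ := by
      rw [eq_neg_of_add_eq_zero_left h1.symm, norm_neg]
    have h3 := (hRv 0).trans_lt hηρ.1
    have h4 := min_le_right ε₁ ‖a 0 v₁‖
    rw [← hε] at h4
    linarith
  have hsu : ∀ᶠ v in 𝓝 v₁, ∀ j, s j v = κ v ^ k * S v * u j v := by
    filter_upwards [ball_mem_nhds v₁ hρ, (hSc v₁ hv₁).continuousAt.eventually_ne hS0]
      with v hv hSv j
    have h1 : κ v ^ k ≠ 0 := pow_ne_zero _ (hb2 v hv)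
    have h2 : S v * u j v = s j v / κ v ^ k := by
      show S v * (a j v + Er j v * (S v)⁻¹ +
        (s j v / κ v ^ k - (S v * a j v + Er j v)) * (S v)⁻¹) = _
      field_simp
      ring
    rw [mul_assoc, h2, mul_div_cancel₀ _ h1]
  have hκ1 : κ v₁ ^ k ≠ 0 := pow_ne_zero _ hm0
  have hs0 : s 0 v₁ ≠ 0 := by
    rw [hsu.self_of_nhds 0]
    exact mul_ne_zero (mul_ne_zero hκ1 hS0) hu00
  refine ⟨k, D, Ψ, hΨ, hD0, hk2, hs0, fun c hc => ratio_indep hud hu00 hXi c fun ξ => ?_⟩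
  rw [← hc ξ]
  refine Finset.sum_congr rfl fun i _ => ?_
  congr 1
  have h1 : (fun w => u i.succ w / u 0 w) =ᶠ[𝓝 v₁] fun w => s i.succ w / s 0 w := by
    filter_upwards [hsu, ball_mem_nhds v₁ hρ, (hSc v₁ hv₁).continuousAt.eventually_ne hS0]
      with w hw hw' hw''
    rw [hw, hw, mul_div_mul_left _ _ (mul_ne_zero (pow_ne_zero _ (hb2 w hw')) hw'')]
  rw [h1.fderiv_eq]

end Limit

end Vale.Agent.P281.H349.U
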