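import Vale.Agent.P281.H349.U.Val
import Vale.Agent.P281.H713.GBound
import Vale.Agent.P281.H64.TU.Spec

/-!
# P281, project T-U: the relative forms defined by the series
-/

open scoped Manifold ContDiff Topology
open Set Filter Metric Module

namespace Vale.Agent.P281.H349.U

open Vale.Agent.P281 Vale.Agent.P281.MF Vale.Agent.P281.ISO Vale.Agent.P281.ELL
open Vale.Agent.P281.H713 Vale.Agent.P281.H64.TU

set_option linter.unusedSectionVars false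

section Forms

variable {E E' : Type} [NormedAddCommGroup E] [NormedSpace ℂ E] [FiniteDimensional ℂ E]
  [NormedAddCommGroup E'] [NormedSpace ℂ E'] [FiniteDimensional ℂ E']
variable {X Y : Type} [TopologicalSpace X] [ChartedSpace E X] [IsManifold 𝓘(ℂ, E) ω X]
  [TopologicalSpace Y] [ChartedSpace E' Y] [IsManifold 𝓘(ℂ, E') ω Y]
variable {V : Type} [NormedAddCommGroup V] [InnerProductSpace ℂ V] [FiniteDimensional ℂ V]
variable {n d r : ℕ} {Q : (Fin n → ℝ) → (Fin n → ℝ) → ℝ}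
variable {f : X → Y} {S : Set Y} {ι : Type} {U : ι → Set Y}
  {π : ι → Y → ((Fin n → ℝ) ≃L[ℝ] V)} {α : ι → X → V} {𝒯 : Tame (Fin d → ℂ) X}

/-- two lifts differ by an affine map along the fibre -/
theorem lift_changeR (hC : IsAlbR E E' d r 𝒯 f S Q U π α) {a b : ι} {x : X} (ha : f x ∈ U a)
    (hb : f x ∈ U b) {β β' : X → V} (hβ : Lft E f π α a x β) (hβ' : Lft E f π α b x β') :
    ∃ (G : V ≃L[ℂ] V) (c : V), IsPeriodChange Q (π a (f x)) (π b (f x)) G ∧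
      ∀ᶠ z in 𝓝 x, f z = f x → β' z = G (β z) + c := by
  obtain ⟨G, c, hG, hGc⟩ := hC.change a b (f x) ⟨ha, hb⟩
  obtain ⟨ε, hε, hdis⟩ := lam_discrete (π b (f x))
  have hlat : ∀ᶠ z in 𝓝 x, f z = f x → β' z - (G (β z) + c) ∈ Lam (π b (f x)) := by
    filter_upwards [hβ.2, hβ'.2] with z h1 h2 hz
    rw [hz] at h1 h2
    obtain ⟨m₁, hm₁⟩ := h1
    obtain ⟨m₂, hm₂⟩ := h2
    obtain ⟨m₃, hm₃⟩ := hGc z hz
    obtain ⟨m₄, hm₄⟩ := hG.1 m₁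
    have h3 : β' z - (G (β z) + c) = (π b (f x) fun i => (m₃ i : ℝ)) +
        (π b (f x) fun i => (m₂ i : ℝ)) - π b (f x) fun i => (m₄ i : ℝ) := by
      rw [hm₂, hm₃, hm₁, map_add, hm₄]
      abel
    rw [h3]
    exact lam_sub (lam_add (mem_lam _) (mem_lam _)) (mem_lam _)
  have hx0 := hlat.self_of_nhds rfl
  have hcont : ContinuousAt (fun z => β' z - (G (β z) + c) - (β' x - (G (β x) + c))) x :=
    (hβ'.1.continuousAt.sub
      ((G.continuous.continuousAt.comp hβ.1.continuousAt).add continuousAt_const)).sub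
      continuousAt_const
  have hsm := hcont.norm.eventually_lt_const (u := ε) (by
    show ‖β' x - (G (β x) + c) - (β' x - (G (β x) + c))‖ < ε
    rw [sub_self, norm_zero]
    exact hε)
  refine ⟨G, c + (β' x - (G (β x) + c)), hG, ?_⟩
  filter_upwards [hlat, hsm] with z hz hz' hfz
  have h5 := hdis _ (hz hfz) _ hx0 hz'
  rw [← h5]
  abel

variable {wt k : ℕ} {T : ((Fin d → ℂ) → V) → (Fin d → ℂ) → ℂ}
  {π₀ : (Fin n → ℝ) ≃L[ℝ] V} {G₀ : V ≃L[ℂ] V}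

/-- the value of the form does not depend on the slice -/
theorem gvl_slice (hf : ∀ x, HolM E E' f x) (e₀ : E ≃L[ℂ] (E' × (Fin d → ℂ)))
    (hT : IsTerm wt k T) (Pr : (Fin n → ℝ) ≃L[ℝ] V) {x : X} {ζ : X → (Fin d → ℂ)}
    (hζ : HolV E ζ x)
    (hinj : ∀ ξ, dM E E' f x ξ = 0 → dV E ζ x ξ = 0 → ξ = 0) {R : E' × (Fin d → ℂ) → X}
    (hR1 : ContMDiffAt 𝓘(ℂ, E' × (Fin d → ℂ)) 𝓘(ℂ, E) ω R (chartAt E' (f x) (f x), ζ x))
    (hR2 : ∀ᶠ z in 𝓝 x, R (chartAt E' (f x) (f z), ζ z) = z)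
    {β : X → V} (hβ : HolV E β x) {q : (Fin d → ℂ) → X} {v : Fin d → ℂ}
    {P : E →L[ℂ] (Fin d → ℂ)} (hq : SlG E f q v x P) :
    gval Q π₀ G₀ T Pr (fun t => β (q t)) v * JP e₀ (dM E E' f x) P ^ wt =
      gval Q π₀ G₀ T Pr (fun t => β (R (chartAt E' (f x) (f x), t))) (ζ x) *
        JP e₀ (dM E E' f x) (dV E ζ x) ^ wt := by
  obtain ⟨hqx, hq1, hq2, hq3⟩ := hq
  subst hqx
  set x := q v with hx
  have hqt : Tendsto q (𝓝 v) (𝓝 x) := hq1.continuousAt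
  set h : (Fin d → ℂ) → (Fin d → ℂ) := fun t => ζ (q t) with hh
  have hhc : ContDiffAt ℂ ω h v := (slice_fderiv hq1 hζ).1
  have hR0 : R (chartAt E' (f x) (f x), ζ x) = x := hR2.self_of_nhds
  set b₀ : (Fin d → ℂ) → V := fun t => β (R (chartAt E' (f x) (f x), t)) with hb₀
  have hb₀c : ContDiffAt ℂ ω b₀ (h v) := by
    have h1 : ContMDiffAt 𝓘(ℂ, Fin d → ℂ) 𝓘(ℂ, E' × (Fin d → ℂ)) ω
        (fun t : Fin d → ℂ => (chartAt E' (f x) (f x), t)) (ζ x) :=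
      contMDiffAt_iff_contDiffAt.2 (contDiffAt_const.prodMk contDiffAt_id)
    have h2 : ContMDiffAt 𝓘(ℂ, Fin d → ℂ) 𝓘(ℂ, E) ω
        (fun t : Fin d → ℂ => R (chartAt E' (f x) (f x), t)) (ζ x) :=
      ContMDiffAt.comp (ζ x) hR1 h1
    have h3 : HolV E β (R (chartAt E' (f x) (f x), ζ x)) := by rw [hR0]; exact hβ
    exact (slice_fderiv h2 h3).1
  have heq : (fun t => β (q t)) =ᶠ[𝓝 v] fun t => b₀ (h t) := by
    filter_upwards [hqt.eventually hR2, hq2] with t h1 h2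
    show β (q t) = β (R (chartAt E' (f x) (f x), ζ (q t)))
    rw [h2] at h1
    rw [h1]
  have h4 := JP_slice hf e₀ hq1 hq2 hζ hinj hq3
  rw [gvl_congr hT heq, gvl_comp hT hhc hb₀c, h4, mul_pow]
  ring

/-- the value of the form is well defined -/
theorem gvl_indep (hC : IsAlbR E E' d r 𝒯 f S Q U π α) (hf : ∀ x, HolM E E' f x)
    (e₀ : E ≃L[ℂ] (E' × (Fin d → ℂ))) (hT : IsTerm wt k T) {a b : ι} {x : X}
    (ha : f x ∈ U a) (hb : f x ∈ U b) {β β' : X → V} (hβ : Lft E f π α a x β)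
    (hβ' : Lft E f π α b x β') {q q' : (Fin d → ℂ) → X} {v v' : Fin d → ℂ}
    {P P' : E →L[ℂ] (Fin d → ℂ)} (hq : SlG E f q v x P) (hq' : SlG E f q' v' x P') :
    gval Q π₀ G₀ T (π a (f x)) (fun t => β (q t)) v * JP e₀ (dM E E' f x) P ^ wt =
      gval Q π₀ G₀ T (π b (f x)) (fun t => β' (q' t)) v' * JP e₀ (dM E E' f x) P' ^ wt := by
  obtain ⟨G, c, hG, hGc⟩ := lift_changeR hC ha hb hβ hβ'
  obtain ⟨ζ, hζ, hinj⟩ := hC.coord x ((hC.cover _).2 ⟨a, ha⟩)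
  obtain ⟨R, hR1, hR2, -⟩ := exists_slices hf e₀ hζ hinj
  rw [gvl_slice hf e₀ hT _ hζ hinj hR1 hR2 hβ.1 hq]
  rw [← gvl_slice hf e₀ hT (π a (f x)) hζ hinj hR1 hR2 hβ.1 hq']
  congr 1
  obtain ⟨hq0, hq1, hq2, -⟩ := hq'
  have hbc : ContDiffAt ℂ ω (fun t => β (q' t)) v' := by
    have h1 : HolV E β (q' v') := by rw [hq0]; exact hβ.1
    exact (slice_fderiv hq1 h1).1
  rw [← gvl_affine hT hG c hbc]
  refine gvl_congr hT ?_
  have hqt : Tendsto q' (𝓝 v') (𝓝 x) := by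
    have := hq1.continuousAt.tendsto
    rwa [hq0] at this
  filter_upwards [hqt.eventually hGc, hq2] with t h1 h2
  exact (h1 h2).symm

/-- the property which characterizes the form `Θ` -/
def IsVal (e₀ : E ≃L[ℂ] (E' × (Fin d → ℂ))) (Q : (Fin n → ℝ) → (Fin n → ℝ) → ℝ)
    (π₀ : (Fin n → ℝ) ≃L[ℝ] V) (G₀ : V ≃L[ℂ] V) (T : ((Fin d → ℂ) → V) → (Fin d → ℂ) → ℂ)
    (wt : ℕ) (f : X → Y) (U : ι → Set Y) (π : ι → Y → ((Fin n → ℝ) ≃L[ℝ] V))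
    (α : ι → X → V) (Θ : X → ℂ) : Prop :=
  ∀ a x, f x ∈ U a → ∀ β, Lft E f π α a x β → ∀ q v P, SlG E f q v x P →
    Θ x = gval Q π₀ G₀ T (π a (f x)) (fun t => β (q t)) v * JP e₀ (dM E E' f x) P ^ wt

/-- the forms -/
theorem exists_form (hC : IsAlbR E E' d r 𝒯 f S Q U π α) (hf : ∀ x, HolM E E' f x)
    (e₀ : E ≃L[ℂ] (E' × (Fin d → ℂ))) (hT : IsTerm wt k T) :
    ∃ Θ : X → ℂ, IsVal e₀ Q π₀ G₀ T wt f U π α Θ := by
  classical
  have hex : ∀ x, ∃ θ : ℂ, ∀ a, f x ∈ U a → ∀ β, Lft E f π α a x β → ∀ q v P,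
      SlG E f q v x P →
      θ = gval Q π₀ G₀ T (π a (f x)) (fun t => β (q t)) v * JP e₀ (dM E E' f x) P ^ wt := by
    intro x
    by_cases hx : ∃ a, f x ∈ U a
    · obtain ⟨a, ha⟩ := hx
      obtain ⟨β, hβ⟩ := hC.lift a x ha
      obtain ⟨ζ, hζ, hinj⟩ := hC.coord x ((hC.cover _).2 ⟨a, ha⟩)
      obtain ⟨R, hR1, hR2, hR3⟩ := exists_slices hf e₀ hζ hinj
      have hq := (slg_near hf hζ hR1 hR2 hR3).self_of_nhds
      exact ⟨_, fun b hb β' hβ' q' v' P' hq' => gvl_indep hC hf e₀ hT ha hb hβ hβ' hq hq'⟩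
    · exact ⟨0, fun a ha => absurd ⟨a, ha⟩ hx⟩
  choose Θ hΘ using hex
  exact ⟨Θ, fun a x => hΘ x a⟩

/-- holomorphy of the coefficients -/
theorem form_local (hC : IsAlbR E E' d r 𝒯 f S Q U π α) (hn : 0 < n)
    (hf : ∀ x, HolM E E' f x) (e₀ : E ≃L[ℂ] (E' × (Fin d → ℂ))) (hT : IsTerm wt k T)
    (hk : n * n + 1 ≤ k) (h₀ : IsPol Q π₀ G₀) {Θ : X → ℂ}
    (hΘ : IsVal e₀ Q π₀ G₀ T wt f U π α Θ) {x : X} (hx : f x ∉ S) {ζ : X → (Fin d → ℂ)}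
    (hζ : HolV E ζ x) (hinj : ∀ ξ, dM E E' f x ξ = 0 → dV E ζ x ξ = 0 → ξ = 0) :
    ∃ (c : X → ℂ), HolV E c x ∧
      ∀ᶠ z in 𝓝 x, Θ z = c z * JP e₀ (dM E E' f z) (dV E ζ z) ^ wt := by
  obtain ⟨a, ha⟩ := (hC.cover (f x)).1 hx
  obtain ⟨β, hβ⟩ := hC.lift a x ha
  have hβ : Lft E f π α a x β := hβ
  obtain ⟨R, hR1, hR2, hR3⟩ := exists_slices hf e₀ hζ hinj
  set ψ := chartAt E' (f x) with hψ
  have hys : f x ∈ ψ.source := mem_chart_source E' (f x)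
  have hR0 : R (ψ (f x), ζ x) = x := hR2.self_of_nhds
  have hpair : HolV E (fun z => (ψ (f z), ζ z)) x :=
    (HolV.comp (h := (ψ : Y → E')) (HolV.chart hys) (hf x)).prodMk hζ
  have hB : ContDiffAt ℂ ω (fun p => β (R p)) (ψ (f x), ζ x) := by
    have h1 : HolV E β (R (ψ (f x), ζ x)) := by rw [hR0]; exact hβ.1
    exact (slice_fderiv hR1 h1).1
  set U₁ : Set E' := ψ.target ∩ ψ.symm ⁻¹' (U a) with hU₁
  have hU₁o : IsOpen U₁ :=
    ψ.continuousOn_symm.isOpen_inter_preimage ψ.open_target (hC.isOpen a)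
  have hx₁ : ψ (f x) ∈ U₁ := by
    refine ⟨ψ.map_source hys, ?_⟩
    show ψ.symm (ψ (f x)) ∈ U a
    rw [ψ.left_inv hys]
    exact ha
  have hPd : ∀ w, DifferentiableOn ℂ (fun p => π a (ψ.symm p) w) U₁ := by
    intro w p hp
    have h1 : HolV E' (fun y => π a y w) (ψ.symm p) := hC.hol a w _ hp.2
    have h2 := h1.rep (ψ.map_target hp.1)
    rw [ψ.right_inv hp.1] at h2
    exact (h2.differentiableAt (by simp)).differentiableWithinAt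
  have hG := gvl_analytic (T := T) (Q := Q) hn hk hT h₀ hU₁o
    (P := fun p => π a (ψ.symm p)) hPd (fun p hp => hC.polarized a _ hp.2)
    (B := fun y => β (R y)) (x₀ := (ψ (f x), ζ x)) hx₁ hB
  refine ⟨fun z => gval Q π₀ G₀ T (π a (ψ.symm (ψ (f z))))
    (fun t => β (R (ψ (f z), t))) (ζ z), ?_, ?_⟩
  · exact HolV.comp_contDiff (v := fun z => (ψ (f z), ζ z)) hG.contDiffAt hpair
  · filter_upwards [slg_near hf hζ hR1 hR2 hR3, HolV.eventually hβ.1,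
      eventually_eventually_nhds.2 hβ.2,
      (hf x).continuousAt.eventually ((hC.isOpen a).mem_nhds ha),
      (hf x).continuousAt.eventually (ψ.open_source.mem_nhds hys)] with z h1 h2 h3 h4 h5
    rw [ψ.left_inv h5]
    exact hΘ a z h4 β ⟨h2, h3⟩ _ _ _ h1

/-- the lift of the map to the torus along a polydisc -/
theorem poly_liftR (hC : IsAlbR E E' d r 𝒯 f S Q U π α) {q : (Fin d → ℂ) → X}
    {v₀ : Fin d → ℂ} {ρ : ℝ} (hq : IsPolydisc E f q v₀ ρ) {a : ι} (ha : f (q v₀) ∈ U a) :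
    ∃ h : (Fin d → ℂ) → V, DifferentiableOn ℂ h (ball v₀ ρ) ∧
      (∀ v ∈ ball v₀ ρ, IsCongr (π a (f (q v₀))) (α a (q v)) (h v)) := by
  obtain ⟨hq1, hq2, hq3⟩ := hq
  set y' := f (q v₀) with hy'
  obtain ⟨ε, hε, hdis⟩ := lam_discrete (π a y')
  have : CompleteSpace V := FiniteDimensional.complete ℂ V
  obtain ⟨H, hH1, hH2, -⟩ := H713.exists_lift (E := Fin d → ℂ) (p := cls (π a y'))
    (Λ := Lam (π a y')) hε hdis
    (fun w w' => cls_eq) (B := ball v₀ ρ) isOpen_ball (convex_ball v₀ ρ)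
    (Q := fun v => cls (π a y') (α a (q v)))
    (fun v hv => by
      have hv' : f (q v) ∈ U a := by rw [hq3 v hv]; exact ha
      obtain ⟨β, h4, h5⟩ := hC.lift a (q v) hv'
      have h6 := hq1 v hv
      refine ⟨fun z => β (q z), (slice_fderiv h6 h4).1, ?_⟩
      filter_upwards [h6.continuousAt.eventually h5, isOpen_ball.mem_nhds hv] with z h7 h8
      rw [hq3 z h8] at h7
      exact (congr_iff_cls.1 h7).symm)
  exact ⟨H, hH1, fun v hv => congr_iff_cls.2 (hH2 v hv).symm⟩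

/-- the uniform bound on tame slices -/
theorem form_bound (hC : IsAlbR E E' d r 𝒯 f S Q U π α) (hn : 0 < n)
    (e₀ : E ≃L[ℂ] (E' × (Fin d → ℂ))) (hT : IsTerm wt k T) (hk : 2 * (n * n + 1) ≤ k)
    (h₀ : IsPol Q π₀ G₀) {Θ : X → ℂ}
    (hΘ : IsVal e₀ Q π₀ G₀ T wt f U π α Θ) {ρ K : ℝ} (hρ : 0 < ρ) (hKK : 0 < K) :
    ∃ C : ℝ, ∀ (v₀ : Fin d → ℂ) (q : (Fin d → ℂ) → X),
      (∀ v ∈ ball v₀ ρ, ContMDiffAt 𝓘(ℂ, Fin d → ℂ) 𝓘(ℂ, E) ω q v) → InjOn q (ball v₀ ρ) →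
      (∀ v ∈ ball v₀ ρ, f (q v) = f (q v₀)) → f (q v₀) ∉ S → 𝒯 K q v₀ ρ →
      ∀ P : E →L[ℂ] (Fin d → ℂ),
      P.comp (mfderiv 𝓘(ℂ, Fin d → ℂ) 𝓘(ℂ, E) q v₀ : (Fin d → ℂ) →L[ℂ] E) =
        ContinuousLinearMap.id ℂ (Fin d → ℂ) →
      ‖Θ (q v₀)‖ ≤ C * ‖JP e₀ (dM E E' f (q v₀)) P ^ wt‖ := by
  obtain ⟨A, hA⟩ := hC.bound ρ K hρ hKK
  have hρ2 : 0 < ρ / 2 := half_pos hρ
  have hA0 : 0 ≤ max A 0 := le_max_right _ _
  obtain ⟨C, hC0, hCb⟩ := gvl_bound (Q := Q) (π₀ := π₀) (G₀ := G₀) hn hρ2 hA0 hT hk h₀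
  refine ⟨C, fun v₀ q h1 h2 h3 h4 hTm P h5 => ?_⟩
  obtain ⟨a, ha⟩ := (hC.cover _).1 h4
  obtain ⟨h, hh1, hh2⟩ := poly_liftR hC ⟨h1, h2, h3⟩ ha
  obtain ⟨β, hβ⟩ := hC.lift a (q v₀) ha
  have hβ : Lft E f π α a (q v₀) β := hβ
  obtain ⟨G, hG⟩ : ∃ G, IsPol Q (π a (f (q v₀))) G := hC.polarized a _ ha
  have hv₀ : v₀ ∈ ball v₀ ρ := mem_ball_self hρ
  have hqc := (h1 v₀ hv₀).continuousAt
  have hslc : SlG E f q v₀ (q v₀) P :=
    ⟨rfl, h1 v₀ hv₀, eventually_of_mem (ball_mem_nhds v₀ hρ) h3, h5⟩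
  have : CompleteSpace V := FiniteDimensional.complete ℂ V
  have hhan : ∀ v ∈ ball v₀ ρ, ContDiffAt ℂ ω h v := fun v hv =>
    (MF.analyticAt_of_differentiableOn isOpen_ball hh1 hv).contDiffAt
  have hcv : gval Q π₀ G₀ T (π a (f (q v₀))) (fun t => β (q t)) v₀ =
      gval Q π₀ G₀ T (π a (f (q v₀))) h v₀ := by
    have h6 : (fun t => β (q t)) =ᶠ[𝓝 v₀] fun z => h z + (β (q v₀) - h v₀) := by
      refine lift_constG (P := π a (f (q v₀))) (w := fun z => α a (q z))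
        (hh1.continuousOn.continuousAt (ball_mem_nhds v₀ hρ))
        (slice_fderiv (h1 v₀ hv₀) hβ.1).1.continuousAt
        (eventually_of_mem (ball_mem_nhds v₀ hρ) hh2) ?_
      filter_upwards [hqc.eventually hβ.2, ball_mem_nhds v₀ hρ] with z h7 h8
      rw [h3 z h8] at h7
      exact h7
    rw [gvl_congr hT h6, gvl_shift hT _ (hhan v₀ hv₀)]
  rw [hΘ a _ ha β hβ q v₀ P hslc, hcv, norm_mul]
  refine mul_le_mul_of_nonneg_right ?_ (norm_nonneg _)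
  have hsub : ball v₀ (ρ / 2) ⊆ ball v₀ ρ := ball_subset_ball (by linarith)
  refine hCb _ G hG h v₀ (hh1.mono hsub) fun v hv => ?_
  exact (hA a q v₀ ⟨h1, h2, h3⟩ hTm ha h hh1 hh2 G hG v hv).trans (le_max_left _ _)

theorem relForm (hC : IsAlbR E E' d r 𝒯 f S Q U π α) (hn : 0 < n)
    (hf : ∀ x, HolM E E' f x) (e₀ : E ≃L[ℂ] (E' × (Fin d → ℂ))) (hT : IsTerm wt k T)
    (hk : 2 * (n * n + 1) ≤ k) (h₀ : IsPol Q π₀ G₀) {Θ : X → ℂ}
    (hΘ : IsVal e₀ Q π₀ G₀ T wt f U π α Θ) :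
    RelFormT 𝒯 f S e₀ wt ∅ (fun _ => 0) Θ := by
  refine ⟨hol_of_local hf e₀ ?_, ?_⟩
  · intro x hx T eD _ _
    obtain ⟨ζ, hζ, hinj⟩ := hC.coord x hx
    obtain ⟨c, hc, hev⟩ := form_local hC hn hf e₀ hT (by omega) h₀ hΘ hx hζ hinj
    refine ⟨ζ, c, hζ, hc, ?_⟩
    filter_upwards [hev] with z h4 _ _
    simp only [pow_zero, Finset.prod_const_one, mul_one]
    exact h4
  · intro ρ K hρ hK
    obtain ⟨C, hC'⟩ := form_bound hC hn e₀ hT hk h₀ hΘ hρ hK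
    exact ⟨C, fun v₀ q h1 h2 h3 h4 _ h5 P h6 => hC' v₀ q h1 h2 h3 h4 h5 P h6⟩

end Forms

end Vale.Agent.P281.H349.U
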