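import Vale.Agent.P281.H713.GTerm

/-!
# P281, project T-U: covariant derivatives from a frame of linear functionals

The frame is `m : Fin d → (V →L[ℂ] ℂ)`; the covariant derivative of a function of weight `w` is
`det N * D_j g - w * g * D_j (det N)`, where `N = (m a (dh ε_b))` and `D_j g` is the determinant of
`N` with row `j` replaced by `dg`.
-/

open scoped Topology ContDiff
open Set Filter Module Metric

namespace Vale.Agent.P281.H349.U

open Vale.Agent.P281 Vale.Agent.P281.H713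

set_option linter.unusedSectionVars false

section Fr

variable {d : ℕ} {W W' : Type*} [NormedAddCommGroup W] [NormedSpace ℂ W] [NormedAddCommGroup W']
  [NormedSpace ℂ W']

/-- the derivatives of a function -/
noncomputable def gr (ε : Fin d → W) (g : W → ℂ) (p : W) : Fin d → ℂ := fun b => fderiv ℂ g p (ε b)

/-- `det N` times the derivative of `g` dual to the row `j` of the frame `N` -/
noncomputable def dj (ε : Fin d → W) (N : W → Matrix (Fin d) (Fin d) ℂ) (j : Fin d) (g : W → ℂ)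
    (p : W) : ℂ :=
  ((N p).updateRow j (gr ε g p)).det

/-- the covariant derivative of `g`, of weight `w` -/
noncomputable def nb (ε : Fin d → W) (N : W → Matrix (Fin d) (Fin d) ℂ) (w : ℂ) (j : Fin d)
    (g : W → ℂ) (p : W) : ℂ :=
  (N p).det * dj ε N j g p - w * g p * dj ε N j (fun q => (N q).det) p

/-- iterated covariant derivatives of functions of weight `1` -/
noncomputable def wn (ε : Fin d → W) (N : W → Matrix (Fin d) (Fin d) ℂ) :
    List (Fin d) → (W → ℂ) → W → ℂ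
  | [], g => g
  | j :: l, g => nb ε N ((1 + 2 * l.length : ℕ) : ℂ) j (wn ε N l g)

theorem contDiffAt_dj {ε : Fin d → W} {N : W → Matrix (Fin d) (Fin d) ℂ} {p : W}
    (hN : ∀ i k, ContDiffAt ℂ ω (fun q => N q i k) p) (j : Fin d) {g : W → ℂ}
    (hg : ContDiffAt ℂ ω g p) : ContDiffAt ℂ ω (dj ε N j g) p := by
  refine contDiffAt_det fun i k => ?_
  by_cases hij : i = j
  · subst hij
    simp only [Matrix.updateRow_self]
    exact contDiffAt_fd hg _
  · simp only [Matrix.updateRow_ne hij]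
    exact hN i k

theorem contDiffAt_nb {ε : Fin d → W} {N : W → Matrix (Fin d) (Fin d) ℂ} {p : W}
    (hN : ∀ i k, ContDiffAt ℂ ω (fun q => N q i k) p) (w : ℂ) (j : Fin d) {g : W → ℂ}
    (hg : ContDiffAt ℂ ω g p) : ContDiffAt ℂ ω (nb ε N w j g) p :=
  ((contDiffAt_det hN).mul (contDiffAt_dj hN j hg)).sub
    ((contDiffAt_const.mul hg).mul (contDiffAt_dj hN j (contDiffAt_det hN)))

theorem contDiffAt_wn {ε : Fin d → W} {N : W → Matrix (Fin d) (Fin d) ℂ} {p : W}
    (hN : ∀ i k, ContDiffAt ℂ ω (fun q => N q i k) p) {g : W → ℂ} (hg : ContDiffAt ℂ ω g p)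
    (l : List (Fin d)) : ContDiffAt ℂ ω (wn ε N l g) p := by
  induction l with
  | nil => exact hg
  | cons j l ih => exact contDiffAt_nb hN _ j ih

theorem gr_congr {ε : Fin d → W} {g g' : W → ℂ} {p : W} (h : g =ᶠ[𝓝 p] g') :
    gr ε g p = gr ε g' p := by
  unfold gr
  rw [h.fderiv_eq]

theorem nb_congr {ε : Fin d → W} {N N' : W → Matrix (Fin d) (Fin d) ℂ} {w : ℂ} {j : Fin d}
    {g g' : W → ℂ} {p : W} (hN : N =ᶠ[𝓝 p] N') (h : g =ᶠ[𝓝 p] g') :
    nb ε N w j g p = nb ε N' w j g' p := by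
  unfold nb dj
  rw [gr_congr h, gr_congr (hN.mono fun q hq => congrArg Matrix.det hq), hN.self_of_nhds,
    h.self_of_nhds]

theorem wn_congr {ε : Fin d → W} {N N' : W → Matrix (Fin d) (Fin d) ℂ} {g g' : W → ℂ} {p : W}
    (hN : N =ᶠ[𝓝 p] N') (h : g =ᶠ[𝓝 p] g') (l : List (Fin d)) :
    wn ε N l g =ᶠ[𝓝 p] wn ε N' l g' := by
  induction l with
  | nil => exact h
  | cons j l ih =>
    filter_upwards [eventually_eventually_nhds.2 ih, eventually_eventually_nhds.2 hN] with u h1 h2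
    exact nb_congr h2 h1

theorem upd_mul (N Ψ : Matrix (Fin d) (Fin d) ℂ) (j : Fin d) (x : Fin d → ℂ) :
    ((N * Ψ).updateRow j (Matrix.vecMul x Ψ)).det = (N.updateRow j x).det * Ψ.det := by
  rw [← Matrix.det_mul]
  congr 1
  ext i k
  by_cases hij : i = j
  · subst hij
    rw [Matrix.updateRow_self, Matrix.mul_apply_eq_vecMul, Matrix.updateRow_self]
  · rw [Matrix.updateRow_ne hij, Matrix.mul_apply_eq_vecMul, Matrix.mul_apply_eq_vecMul,
      Matrix.updateRow_ne hij]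

/-- transformation of the derivatives -/
theorem gr_transf {ε : Fin d → W} {ε' : Fin d → W'} {g : W → ℂ} {g' : W' → ℂ} {ψ : W' → W}
    {Ψ : Matrix (Fin d) (Fin d) ℂ} {J : W' → ℂ} {w : ℕ} {p : W'}
    (hψ : DifferentiableAt ℂ ψ p) (hΨ : ∀ b, fderiv ℂ ψ p (ε' b) = ∑ c, Ψ c b • ε c)
    (hJ : DifferentiableAt ℂ J p) (hg : DifferentiableAt ℂ g (ψ p))
    (hg' : g' =ᶠ[𝓝 p] fun u => J u ^ w * g (ψ u)) :
    gr ε' g' p = J p ^ w • Matrix.vecMul (gr ε g (ψ p)) Ψ +
      (g (ψ p) * (w * J p ^ (w - 1))) • gr ε' J p := by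
  rw [gr_congr hg']
  have h1 : HasFDerivAt (fun u => g (ψ u)) ((fderiv ℂ g (ψ p)).comp (fderiv ℂ ψ p)) p :=
    hg.hasFDerivAt.comp p hψ.hasFDerivAt
  have h2 : HasFDerivAt (fun u => J u ^ w) ((w * J p ^ (w - 1)) • fderiv ℂ J p) p := by
    have := hJ.hasFDerivAt.pow w
    rwa [nsmul_eq_mul] at this
  have h3 : fderiv ℂ (fun u => J u ^ w * g (ψ u)) p =
      (J p ^ w) • (fderiv ℂ g (ψ p)).comp (fderiv ℂ ψ p) +
        g (ψ p) • (w * J p ^ (w - 1)) • fderiv ℂ J p := (h2.mul h1).fderiv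
  funext b
  unfold gr
  rw [h3]
  simp only [add_apply, smul_apply, ContinuousLinearMap.comp_apply, smul_eq_mul, hΨ, map_sum,
    map_smul, Pi.add_apply, Pi.smul_apply, Matrix.vecMul, dotProduct]
  rw [← mul_assoc (g (ψ p))]
  congr 2
  exact Finset.sum_congr rfl fun c _ => mul_comm _ _

theorem nb_transf {ε : Fin d → W} {ε' : Fin d → W'} {N : W → Matrix (Fin d) (Fin d) ℂ}
    {N' : W' → Matrix (Fin d) (Fin d) ℂ} {g : W → ℂ} {g' : W' → ℂ} {ψ : W' → W}
    {Ψ : W' → Matrix (Fin d) (Fin d) ℂ} {w : ℕ} {p : W'} (hw : 0 < w)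
    (hψ : DifferentiableAt ℂ ψ p) (hΨ : ∀ b, fderiv ℂ ψ p (ε' b) = ∑ c, Ψ p c b • ε c)
    (hJ : DifferentiableAt ℂ (fun u => (Ψ u).det) p)
    (hN : DifferentiableAt ℂ (fun q => (N q).det) (ψ p)) (hg : DifferentiableAt ℂ g (ψ p))
    (hN' : ∀ᶠ u in 𝓝 p, N' u = N (ψ u) * Ψ u)
    (hg' : g' =ᶠ[𝓝 p] fun u => (Ψ u).det ^ w * g (ψ u)) (j : Fin d) :
    nb ε' N' w j g' p = (Ψ p).det ^ (w + 2) * nb ε N w j g (ψ p) := by
  have h1 : dj ε' N' j g' p = (Ψ p).det ^ (w + 1) * dj ε N j g (ψ p) +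
      g (ψ p) * (w * (Ψ p).det ^ (w - 1)) * dj ε' N' j (fun u => (Ψ u).det) p := by
    unfold dj
    rw [gr_transf hψ hΨ hJ hg hg', Matrix.det_updateRow_add, Matrix.det_updateRow_smul,
      Matrix.det_updateRow_smul, hN'.self_of_nhds, upd_mul]
    ring
  have h2 : dj ε' N' j (fun q => (N' q).det) p =
      (Ψ p).det ^ 2 * dj ε N j (fun q => (N q).det) (ψ p) +
      (N (ψ p)).det * dj ε' N' j (fun u => (Ψ u).det) p := by
    have h3 : (fun q => (N' q).det) =ᶠ[𝓝 p] fun u => (Ψ u).det ^ 1 * (N (ψ u)).det := by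
      filter_upwards [hN'] with u hu
      rw [hu, Matrix.det_mul, pow_one, mul_comm]
    unfold dj
    rw [gr_transf (w := 1) (g := fun q => (N q).det) hψ hΨ hJ hN h3, Matrix.det_updateRow_add,
      Matrix.det_updateRow_smul, Matrix.det_updateRow_smul, hN'.self_of_nhds, upd_mul]
    simp only [Nat.cast_one, Nat.sub_self, pow_zero, mul_one, pow_one]
    ring
  have h4 : (Ψ p).det * (Ψ p).det ^ (w - 1) = (Ψ p).det ^ w := by
    rw [← pow_succ', Nat.sub_add_cancel hw]
  unfold nb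
  rw [h1, h2, hN'.self_of_nhds, Matrix.det_mul, hg'.self_of_nhds]
  generalize dj ε' N' j (fun u => (Ψ u).det) p = x at *
  generalize dj ε N j (fun q => (N q).det) (ψ p) = y at *
  generalize dj ε N j g (ψ p) = z at *
  simp only [pow_succ]
  rw [← h4]
  ring

/-- transformation of the iterated covariant derivatives -/
theorem wn_transf {ε : Fin d → W} {ε' : Fin d → W'} {N : W → Matrix (Fin d) (Fin d) ℂ}
    {N' : W' → Matrix (Fin d) (Fin d) ℂ} {g : W → ℂ} {g' : W' → ℂ} {ψ : W' → W}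
    {Ψ : W' → Matrix (Fin d) (Fin d) ℂ} {p : W'} (hψ : ContDiffAt ℂ ω ψ p)
    (hΨ : ∀ᶠ u in 𝓝 p, ∀ b, fderiv ℂ ψ u (ε' b) = ∑ c, Ψ u c b • ε c)
    (hJ : ContDiffAt ℂ ω (fun u => (Ψ u).det) p)
    (hN : ∀ i k, ContDiffAt ℂ ω (fun q => N q i k) (ψ p)) (hg : ContDiffAt ℂ ω g (ψ p))
    (hN' : ∀ᶠ u in 𝓝 p, N' u = N (ψ u) * Ψ u)
    (hg' : g' =ᶠ[𝓝 p] fun u => (Ψ u).det * g (ψ u)) (l : List (Fin d)) :
    wn ε' N' l g' =ᶠ[𝓝 p] fun u => (Ψ u).det ^ (1 + 2 * l.length) * wn ε N l g (ψ u) := by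
  have hn : (ω : WithTop ℕ∞) ≠ 0 := by simp
  have hNd : ContDiffAt ℂ ω (fun q => (N q).det) (ψ p) := contDiffAt_det hN
  induction l with
  | nil =>
    filter_upwards [hg'] with u hu
    simp only [wn, List.length_nil, mul_zero, add_zero, pow_one]
    exact hu
  | cons j l ih =>
    filter_upwards [hψ.eventually (by simp), hΨ, hJ.eventually (by simp),
      hψ.continuousAt.eventually (hNd.eventually (by simp)),
      hψ.continuousAt.eventually ((contDiffAt_wn hN hg l).eventually (by simp)),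
      eventually_eventually_nhds.2 hN', eventually_eventually_nhds.2 ih] with u h1 h2 h3 h4 h5 h6 h7
    show nb ε' N' _ j (wn ε' N' l g') u = _ * nb ε N _ j (wn ε N l g) (ψ u)
    rw [nb_transf (w := 1 + 2 * l.length) (by omega) (h1.differentiableAt hn) h2
      (h3.differentiableAt hn) (h4.differentiableAt hn) (h5.differentiableAt hn) h6 h7 j]
    congr 2

/-- slices -/
theorem wn_slice {P : Type*} [NormedAddCommGroup P] [NormedSpace ℂ P] {ε : Fin d → W}
    {N : P × W → Matrix (Fin d) (Fin d) ℂ} {g : P × W → ℂ} {x : P × W}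
    (hN : ∀ i k, ContDiffAt ℂ ω (fun q => N q i k) x) (hg : ContDiffAt ℂ ω g x)
    (l : List (Fin d)) :
    wn ε (fun u => N (x.1, u)) l (fun u => g (x.1, u)) x.2 =
      wn (fun b => ((0 : P), ε b)) N l g x := by
  have hψ : ContDiffAt ℂ ω (fun u : W => (x.1, u)) x.2 := contDiffAt_const.prodMk contDiffAt_id
  have h1 := wn_transf (ε' := ε) (ε := fun b => ((0 : P), ε b)) (N := N)
    (N' := fun u => N (x.1, u)) (g := g)
    (g' := fun u => g (x.1, u)) (ψ := fun u => (x.1, u)) (Ψ := fun _ => 1) (p := x.2)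
    hψ (Eventually.of_forall fun u b => ?_) (by simpa using contDiffAt_const)
    hN hg (Eventually.of_forall fun u => by simp)
    (Eventually.of_forall fun u => by simp) l
  · have h2 := h1.self_of_nhds
    simpa using h2
  · have h3 : HasFDerivAt (fun u : W => (x.1, u)) (ContinuousLinearMap.inr ℂ P W) u :=
      hasFDerivAt_prodMk_right _ _
    rw [h3.fderiv]
    simp [Matrix.one_apply]

/-- linearity -/
theorem wn_sum {ε : Fin d → W} {N : W → Matrix (Fin d) (Fin d) ℂ} {p : W}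
    (hN : ∀ i k, ContDiffAt ℂ ω (fun q => N q i k) p) {ι : Type*} (s : Finset ι) (c : ι → ℂ)
    {g : ι → W → ℂ} (hg : ∀ i ∈ s, ContDiffAt ℂ ω (g i) p) (l : List (Fin d)) :
    wn ε N l (fun u => ∑ i ∈ s, c i * g i u) =ᶠ[𝓝 p] fun u => ∑ i ∈ s, c i * wn ε N l (g i) u := by
  have hn : (ω : WithTop ℕ∞) ≠ 0 := by simp
  induction l with
  | nil => exact Eventually.of_forall fun u => rfl
  | cons j l ih =>
    have hw : ∀ᶠ u in 𝓝 p, ∀ i ∈ s, ContDiffAt ℂ ω (wn ε N l (g i)) u :=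
      (Finset.eventually_all s).2 fun i hi => (contDiffAt_wn hN (hg i hi) l).eventually (by simp)
    filter_upwards [eventually_eventually_nhds.2 ih, hw] with u h1 h2
    show nb ε N _ j (wn ε N l fun u => ∑ i ∈ s, c i * g i u) u =
      ∑ i ∈ s, c i * nb ε N _ j (wn ε N l (g i)) u
    rw [nb_congr (EventuallyEq.refl _ N) h1]
    unfold nb dj
    have h3 : gr ε (fun u => ∑ i ∈ s, c i * wn ε N l (g i) u) u =
        ∑ i ∈ s, c i • gr ε (wn ε N l (g i)) u := by
      have h4 : HasFDerivAt (fun u => ∑ i ∈ s, c i * wn ε N l (g i) u)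
          (∑ i ∈ s, c i • fderiv ℂ (wn ε N l (g i)) u) u :=
        HasFDerivAt.fun_sum fun i hi => ((h2 i hi).differentiableAt hn).hasFDerivAt.const_mul _
      funext b
      rw [Finset.sum_apply]
      unfold gr
      rw [h4.fderiv, sum_apply]
      rfl
    rw [h3]
    simp only [← Matrix.cramer_transpose_apply]
    rw [map_sum, Finset.sum_apply, Finset.mul_sum, Finset.mul_sum, Finset.sum_mul,
      ← Finset.sum_sub_distrib]
    refine Finset.sum_congr rfl fun i _ => ?_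
    rw [map_smul, Pi.smul_apply, smul_eq_mul]
    ring

end Fr

end Vale.Agent.P281.H349.U
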