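import Vale.Agent.P281.H349.U.Fr

/-!
# P281, project T-U: covariant derivatives, non vanishing and bounds
-/

open scoped Topology ContDiff
open Set Filter Module Metric

namespace Vale.Agent.P281.H349.U

open Vale.Agent.P281 Vale.Agent.P281.H713

set_option linter.unusedSectionVars false

section Fr

variable {d : ℕ}

theorem gr_expand (N : (Fin d → ℂ) → Matrix (Fin d) (Fin d) ℂ) (g : (Fin d → ℂ) → ℂ)
    (u : Fin d → ℂ) (b : Fin d) :
    (N u).det * fderiv ℂ g u (bs b) = ∑ j, N u j b * dj bs N j g u := by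
  have h1 := Matrix.mulVec_cramer (N u).transpose (gr bs g u)
  have h2 := congrFun h1 b
  rw [Matrix.det_transpose, Pi.smul_apply, smul_eq_mul] at h2
  have h3 : (N u).det * fderiv ℂ g u (bs b) = (N u).det * gr bs g u b := rfl
  rw [h3, ← h2]
  simp only [Matrix.mulVec, dotProduct, Matrix.transpose_apply]
  refine Finset.sum_congr rfl fun j _ => ?_
  rw [Matrix.cramer_transpose_apply]
  rfl

/-- a function all of whose covariant derivatives vanish at a point is zero. -/
theorem wn_zero {N : (Fin d → ℂ) → Matrix (Fin d) (Fin d) ℂ} {g : (Fin d → ℂ) → ℂ}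
    {v : Fin d → ℂ} (hN : ∀ i k, ContDiffAt ℂ ω (fun q => N q i k) v) (hdet : (N v).det ≠ 0)
    (hg : ContDiffAt ℂ ω g v) (h0 : ∀ l, wn bs N l g v = 0) : ∀ᶠ u in 𝓝 v, g u = 0 := by
  have hn : (ω : WithTop ℕ∞) ≠ 0 := by simp
  -- one variable
  have key : ∀ w : Fin d → ℂ, ∀ᶠ s in 𝓝 (0 : ℂ), g (v + s • w) = 0 := by
    intro w
    set γ : ℂ → Fin d → ℂ := fun s => v + s • w with hγ
    have hγ0 : γ 0 = v := by simp [hγ]
    have hγc : ∀ s, ContDiffAt ℂ ω γ s := fun s =>
      contDiffAt_const.add (contDiffAt_id.smul contDiffAt_const)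
    have hγd : ∀ s, HasDerivAt γ w s := by
      intro s
      have := ((hasDerivAt_id s).smul_const w).const_add v
      rw [one_smul] at this
      exact this
    have hγt : Tendsto γ (𝓝 0) (𝓝 v) := by
      have := (hγc 0).continuousAt.tendsto
      rwa [hγ0] at this
    set D : (Fin d → ℂ) → ℂ := fun u => (N u).det with hD
    have hDc : ContDiffAt ℂ ω D v := contDiffAt_det hN
    let C : Fin d → ℂ → ℂ := fun j s =>
      ∑ b, w b * ((D (γ s))⁻¹ * (D (γ s))⁻¹ * N (γ s) j b)
    let c : List (Fin d) → ℂ → ℂ := fun l s =>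
      ∑ j, C j s * (((1 + 2 * l.length : ℕ) : ℂ) * dj bs N j D (γ s))
    have hcomp : ∀ {F : (Fin d → ℂ) → ℂ}, ContDiffAt ℂ ω F v → AnalyticAt ℂ (fun s => F (γ s)) 0 := by
      intro F hF
      have h1 : ContDiffAt ℂ ω F (γ 0) := by rw [hγ0]; exact hF
      exact (h1.comp (0 : ℂ) (hγc 0)).analyticAt
    have hCa : ∀ j, AnalyticAt ℂ (C j) 0 := by
      intro j
      have h1 : ContDiffAt ℂ ω (fun u => ∑ b, w b * ((D u)⁻¹ * (D u)⁻¹ * N u j b)) v :=
        ContDiffAt.sum fun b _ => contDiffAt_const.mul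
          (((hDc.inv hdet).mul (hDc.inv hdet)).mul (hN j b))
      exact hcomp h1
    have hca : ∀ l, AnalyticAt ℂ (c l) 0 := fun l =>
      Finset.analyticAt_fun_sum _ fun j _ => (hCa j).mul
        (analyticAt_const.mul (hcomp (contDiffAt_dj hN j hDc)))
    let U : List (Fin d) → ℂ → ℂ := fun l s => wn bs N l g (γ s)
    have hwd : ∀ l, ContDiffAt ℂ ω (wn bs N l g) v := fun l => contDiffAt_wn hN hg l
    have hUa : ∀ l, AnalyticAt ℂ (U l) 0 := fun l => hcomp (hwd l)
    have hder : ∀ l, deriv (U l) =ᶠ[𝓝 0] fun s => ∑ j, C j s * U (j :: l) s + c l s * U l s := by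
      intro l
      filter_upwards [hγt.eventually ((hwd l).eventually (by simp)),
        hγt.eventually (hDc.continuousAt.eventually_ne hdet)] with s h1 h2
      have h3 : HasDerivAt (U l) (fderiv ℂ (wn bs N l g) (γ s) w) s :=
        (h1.differentiableAt hn).hasFDerivAt.comp_hasDerivAt s (hγd s)
      rw [h3.deriv, fd_sum]
      have h4 : ∀ b, fderiv ℂ (wn bs N l g) (γ s) (bs b) =
          ∑ j, (D (γ s))⁻¹ * (D (γ s))⁻¹ * N (γ s) j b * (U (j :: l) s +
            ((1 + 2 * l.length : ℕ) : ℂ) * dj bs N j D (γ s) * U l s) := by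
        intro b
        have h5 := gr_expand N (wn bs N l g) (γ s) b
        have h6 : fderiv ℂ (wn bs N l g) (γ s) (bs b) =
            (D (γ s))⁻¹ * ∑ j, N (γ s) j b * dj bs N j (wn bs N l g) (γ s) := by
          rw [eq_inv_mul_iff_mul_eq₀ h2]
          exact h5
        rw [h6, Finset.mul_sum]
        refine Finset.sum_congr rfl fun j _ => ?_
        have h7 : U (j :: l) s = D (γ s) * dj bs N j (wn bs N l g) (γ s) -
            ((1 + 2 * l.length : ℕ) : ℂ) * U l s * dj bs N j D (γ s) := rfl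
        rw [h7]
        field_simp
        ring
      simp only [h4, smul_eq_mul]
      have h8 : c l s * U l s = ∑ j, C j s *
          (((1 + 2 * l.length : ℕ) : ℂ) * dj bs N j D (γ s) * U l s) := by
        show (∑ j, C j s * (((1 + 2 * l.length : ℕ) : ℂ) * dj bs N j D (γ s))) * U l s = _
        rw [Finset.sum_mul]
        exact Finset.sum_congr rfl fun j _ => by ring
      rw [h8, ← Finset.sum_add_distrib]
      simp only [Finset.mul_sum]
      rw [Finset.sum_comm]
      refine Finset.sum_congr rfl fun j _ => ?_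
      rw [← mul_add]
      show _ = (∑ b, w b * ((D (γ s))⁻¹ * (D (γ s))⁻¹ * N (γ s) j b)) * _
      rw [Finset.sum_mul]
      refine Finset.sum_congr rfl fun b _ => ?_
      ring
    have hord : ∀ n : ℕ, ∀ l, (n : ℕ∞) ≤ analyticOrderAt (U l) 0 := by
      intro n
      induction n with
      | zero => intro l; simp
      | succ n ih =>
        intro l
        have h1 := (hUa l).analyticOrderAt_deriv_add_one
        have h2 : (fun s => U l s - U l 0) = U l := by
          funext s
          have : U l 0 = 0 := by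
            show wn bs N l g (γ 0) = 0
            rw [hγ0]
            exact h0 l
          rw [this, sub_zero]
        rw [h2] at h1
        rw [← h1, Nat.cast_succ]
        gcongr
        rw [analyticOrderAt_congr (hder l)]
        have h3 : ∀ l, ∃ G : ℂ → ℂ, AnalyticAt ℂ G 0 ∧
            ∀ᶠ z in 𝓝 0, U l z = (z - 0) ^ n • G z := fun l =>
          (natCast_le_analyticOrderAt (hUa _)).1 (ih l)
        choose G hG hGe using h3
        refine (natCast_le_analyticOrderAt ?_).2
          ⟨fun s => ∑ j, C j s * G (j :: l) s + c l s * G l s, ?_, ?_⟩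
        · exact (Finset.analyticAt_fun_sum _ fun j _ => (hCa j).mul (hUa _)).add
            ((hca l).mul (hUa l))
        · exact (Finset.analyticAt_fun_sum _ fun j _ => (hCa j).mul (hG _)).add
            ((hca l).mul (hG l))
        · filter_upwards [(Filter.eventually_all).2 fun j => hGe (j :: l), hGe l] with s hs hs'
          simp only [hs, hs', smul_eq_mul, mul_add, Finset.mul_sum]
          congr 1
          · refine Finset.sum_congr rfl fun j _ => ?_
            ring
          · ring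
    have htop : analyticOrderAt (U []) 0 = ⊤ := by
      rw [ENat.eq_top_iff_forall_ge]
      exact fun n => hord n []
    exact analyticOrderAt_eq_top.1 htop
  obtain ⟨δ, hδ, hball⟩ := Metric.eventually_nhds_iff_ball.1 (hg.eventually (by simp))
  filter_upwards [ball_mem_nhds v hδ] with u hu
  set w := u - v with hw
  have hconv : Convex ℝ {s : ℂ | v + s • w ∈ ball v δ} := by
    intro s hs t ht a b ha hb hab
    have h1 := (convex_ball v δ) hs ht ha hb hab
    have h2 : v + (a • s + b • t) • w = a • (v + s • w) + b • (v + t • w) := by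
      have h3 : (a : ℂ) + b = 1 := by exact_mod_cast hab
      have h4 : v = ((a : ℂ) + b) • v := by rw [h3, one_smul]
      conv_lhs => rw [h4]
      simp only [← Complex.coe_smul, smul_add, add_smul, smul_smul, smul_eq_mul]
      abel
    show v + (a • s + b • t) • w ∈ ball v δ
    rw [h2]
    exact h1
  have han : AnalyticOnNhd ℂ (fun s : ℂ => g (v + s • w)) {s : ℂ | v + s • w ∈ ball v δ} := by
    intro s hs
    have h1 : ContDiffAt ℂ ω g (v + s • w) := hball _ hs
    have h2 : ContDiffAt ℂ ω (fun s : ℂ => v + s • w) s :=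
      contDiffAt_const.add (contDiffAt_id.smul contDiffAt_const)
    exact (h1.comp s h2).analyticAt
  have h0m : (0 : ℂ) ∈ {s : ℂ | v + s • w ∈ ball v δ} := by
    show v + (0 : ℂ) • w ∈ ball v δ
    simpa using hδ
  have h1m : (1 : ℂ) ∈ {s : ℂ | v + s • w ∈ ball v δ} := by
    show v + (1 : ℂ) • w ∈ ball v δ
    rw [one_smul, hw, add_sub_cancel]
    exact hu
  have h1 := han.eqOn_zero_of_preconnected_of_eventuallyEq_zero hconv.isPreconnected h0m (key w) h1m
  have h2 : g (v + (1 : ℂ) • w) = 0 := h1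
  rwa [one_smul, hw, add_sub_cancel] at h2

/-- bound for the covariant derivatives of bounded functions -/
theorem wn_bound {r B : ℝ} (hr : 0 < r) (hB : 0 ≤ B) (l : List (Fin d)) :
    ∃ K : ℝ, 0 ≤ K ∧ ∀ (N : (Fin d → ℂ) → Matrix (Fin d) (Fin d) ℂ) (g : (Fin d → ℂ) → ℂ)
      (v₀ : Fin d → ℂ), (∀ i k, DifferentiableOn ℂ (fun q => N q i k) (ball v₀ r)) →
      DifferentiableOn ℂ g (ball v₀ r) → (∀ i k, ∀ v ∈ ball v₀ r, ‖N v i k‖ ≤ B) →
      (∀ v ∈ ball v₀ r, ‖g v‖ ≤ B) → ‖wn bs N l g v₀‖ ≤ K := by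
  induction l generalizing r with
  | nil => exact ⟨B, hB, fun N g v₀ _ _ _ h => h v₀ (mem_ball_self hr)⟩
  | cons j l ih =>
    obtain ⟨K₁, hK₁0, hK₁⟩ := ih (half_pos hr)
    obtain ⟨Kd, hKd0, hKd⟩ := det_bound (k := d) hB
    set w : ℂ := ((1 + 2 * l.length : ℕ) : ℂ) with hw
    set M : ℝ := B + K₁ / (r / 2) + Kd / r with hM
    have hM0 : 0 ≤ M := by positivity
    obtain ⟨K, hK0, hK⟩ := det_bound (k := d) hM0
    refine ⟨Kd * K + ‖w‖ * K₁ * K, by positivity, fun N g v₀ hN hg hNB hgB => ?_⟩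
    have hv₀ : v₀ ∈ ball v₀ r := mem_ball_self hr
    have hsub : ∀ u ∈ ball v₀ (r / 2), ball u (r / 2) ⊆ ball v₀ r := by
      intro u hu
      refine ball_subset_ball' ?_
      have := mem_ball.1 hu
      linarith
    have hf1 : ∀ {F : (Fin d → ℂ) → ℂ} {C ρ : ℝ}, 0 < ρ → 0 ≤ C →
        DifferentiableOn ℂ F (ball v₀ ρ) → (∀ v ∈ ball v₀ ρ, ‖F v‖ ≤ C) → ∀ b,
        ‖fderiv ℂ F v₀ (bs b)‖ ≤ C / ρ := by
      intro F C ρ hρ hC hF hFC b
      have h1 := MF.norm_fderiv_le_of_ball hρ hF hFC
      have h2 := (fderiv ℂ F v₀).le_opNorm (bs b)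
      rw [norm_bs, mul_one] at h2
      exact h2.trans h1
    have hNc : ∀ u ∈ ball v₀ r, ∀ i k, ContDiffAt ℂ ω (fun q => N q i k) u := fun u hu i k =>
      (MF.analyticAt_of_differentiableOn isOpen_ball (hN i k) hu).contDiffAt
    have hwdd : DifferentiableOn ℂ (wn bs N l g) (ball v₀ (r / 2)) := by
      intro u hu
      have hu' : u ∈ ball v₀ r := ball_subset_ball (by linarith) hu
      exact ((contDiffAt_wn (hNc u hu') (MF.analyticAt_of_differentiableOn isOpen_ball hg
        hu').contDiffAt l).differentiableAt (n := ω) (by simp)).differentiableWithinAt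
    have hwdb : ∀ u ∈ ball v₀ (r / 2), ‖wn bs N l g u‖ ≤ K₁ := fun u hu =>
      hK₁ N g u (fun i k => (hN i k).mono (hsub u hu)) (hg.mono (hsub u hu))
        (fun i k v hv => hNB i k v (hsub u hu hv)) fun v hv => hgB v (hsub u hu hv)
    have hdd : DifferentiableOn ℂ (fun q => (N q).det) (ball v₀ r) := fun u hu =>
      ((contDiffAt_det (hNc u hu)).differentiableAt (n := ω) (by simp)).differentiableWithinAt
    have hdb : ∀ u ∈ ball v₀ r, ‖(N u).det‖ ≤ Kd := fun u hu => hKd _ fun i k => hNB i k u hu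
    have h1 : 0 ≤ K₁ / (r / 2) := by positivity
    have h2 : 0 ≤ Kd / r := by positivity
    have hdj : ∀ F : (Fin d → ℂ) → ℂ, (∀ b, ‖fderiv ℂ F v₀ (bs b)‖ ≤ M) →
        ‖dj bs N j F v₀‖ ≤ K := by
      intro F hF
      refine hK _ fun i k => ?_
      by_cases hij : i = j
      · subst hij
        rw [Matrix.updateRow_self]
        exact hF k
      · rw [Matrix.updateRow_ne hij]
        have := hNB i k v₀ hv₀
        linarith
    have h3 : ‖dj bs N j (wn bs N l g) v₀‖ ≤ K := hdj _ fun b => by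
      have := hf1 (half_pos hr) hK₁0 hwdd hwdb b
      linarith
    have h4 : ‖dj bs N j (fun q => (N q).det) v₀‖ ≤ K := hdj _ fun b => by
      have := hf1 hr hKd0 hdd hdb b
      linarith
    have h5 := hdb v₀ hv₀
    have h6 := hwdb v₀ (mem_ball_self (half_pos hr))
    show ‖(N v₀).det * dj bs N j (wn bs N l g) v₀ -
      w * wn bs N l g v₀ * dj bs N j (fun q => (N q).det) v₀‖ ≤ _
    refine (norm_sub_le _ _).trans (add_le_add ?_ ?_)
    · rw [norm_mul]
      exact mul_le_mul h5 h3 (norm_nonneg _) hKd0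
    · rw [norm_mul, norm_mul]
      exact mul_le_mul (mul_le_mul_of_nonneg_left h6 (norm_nonneg _)) h4 (norm_nonneg _)
        (by positivity)

end Fr

end Vale.Agent.P281.H349.U
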