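import Vale.Agent.P281.H349.U.Fr2
import Vale.Agent.P281.H713.GNC

/-!
# P281, project T-U: the generalized Wronskian of a frame of functionals
-/

open scoped Topology ContDiff
open Set Filter Module Metric

namespace Vale.Agent.P281.H349.U

open Vale.Agent.P281 Vale.Agent.P281.H713

set_option linter.unusedSectionVars false

section KK

variable {d g : ℕ} {V : Type} [NormedAddCommGroup V] [InnerProductSpace ℂ V]
  [FiniteDimensional ℂ V]

/-- frames -/
abbrev Fm (d : ℕ) (V : Type) [NormedAddCommGroup V] [InnerProductSpace ℂ V] : Type :=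
  Fin d → (V →L[ℂ] ℂ)

/-- the matrix of the frame -/
noncomputable def Nm (m : Fm d V) (h : (Fin d → ℂ) → V) (u : Fin d → ℂ) :
    Matrix (Fin d) (Fin d) ℂ :=
  Matrix.of fun a b => m a (fderiv ℂ h u (bs b))

theorem det_Nm (m : Fm d V) (h : (Fin d → ℂ) → V) (u : Fin d → ℂ) :
    (Nm m h u).det = minor m h u := rfl

theorem Nm_cd (m : Fm d V) {h : (Fin d → ℂ) → V} {v : Fin d → ℂ} (hh : ContDiffAt ℂ ω h v)
    (a b : Fin d) : ContDiffAt ℂ ω (fun u => Nm m h u a b) v :=
  (m a).contDiff.contDiffAt.comp v (contDiffAt_fd hh (bs b))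

/-- The generalized Wronskian. -/
noncomputable def KU (e : Basis (Fin g) ℂ V) (i₀ : Fin g → Fin d) (l : Fin g → List (Fin d))
    (m : Fm d V) (h : (Fin d → ℂ) → V) (v : Fin d → ℂ) : ℂ :=
  (Matrix.of fun i s => wn bs (Nm m h) (l i) (minor (Function.update m (i₀ i) (cL e s)) h) v).det

/-- composition of the frame with a linear map -/
noncomputable def fcomp (m : Fm d V) (C : V →L[ℂ] V) : Fm d V := fun a => (m a).comp C

/-- the weight -/
def nu (l : Fin g → List (Fin d)) : ℕ := ∑ i, (1 + 2 * (l i).length)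

variable {e : Basis (Fin g) ℂ V} {i₀ : Fin g → Fin d} {l : Fin g → List (Fin d)}

theorem minor_cfd (m : Fm d V) {h h' : (Fin d → ℂ) → V} {v : Fin d → ℂ}
    (hh : fderiv ℂ h =ᶠ[𝓝 v] fderiv ℂ h') : minor m h =ᶠ[𝓝 v] minor m h' := by
  filter_upwards [hh] with u hu
  rw [minor_eq, minor_eq, hu]

theorem KU_congr' (m : Fm d V) {h h' : (Fin d → ℂ) → V} {v : Fin d → ℂ}
    (hh : fderiv ℂ h =ᶠ[𝓝 v] fderiv ℂ h') : KU e i₀ l m h v = KU e i₀ l m h' v := by
  unfold KU
  congr 1
  ext i s
  refine (wn_congr ?_ (minor_cfd _ hh) (l i)).self_of_nhds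
  filter_upwards [hh] with u hu
  unfold Nm
  rw [hu]

theorem KU_congr (m : Fm d V) {h h' : (Fin d → ℂ) → V} {v : Fin d → ℂ}
    (hh : h =ᶠ[𝓝 v] h') : KU e i₀ l m h v = KU e i₀ l m h' v :=
  KU_congr' m hh.fderiv

theorem KU_shift (m : Fm d V) (h : (Fin d → ℂ) → V) (v : Fin d → ℂ) (c : V) :
    KU e i₀ l m (fun u => h u + c) v = KU e i₀ l m h v :=
  KU_congr' m (Eventually.of_forall fun _ => fderiv_add_const c)

theorem KU_comp (m : Fm d V) {h : (Fin d → ℂ) → V} {φ : (Fin d → ℂ) → (Fin d → ℂ)}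
    {v : Fin d → ℂ} (hφ : ContDiffAt ℂ ω φ v) (hh : ContDiffAt ℂ ω h (φ v)) :
    KU e i₀ l m (fun u => h (φ u)) v = (fderiv ℂ φ v).det ^ nu l * KU e i₀ l m h (φ v) := by
  have hn : (ω : WithTop ℕ∞) ≠ 0 := by simp
  have hdet : ∀ u, (Matrix.of fun c b => fderiv ℂ φ u (bs b) c).det = (fderiv ℂ φ u).det :=
    fun u => det_fd _
  have hd : ∀ᶠ u in 𝓝 v, DifferentiableAt ℂ φ u ∧ DifferentiableAt ℂ h (φ u) := by
    filter_upwards [hφ.eventually (by simp),
      hφ.continuousAt.eventually (hh.eventually (by simp))] with u h1 h2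
    exact ⟨h1.differentiableAt hn, h2.differentiableAt hn⟩
  have hm : ∀ m : Fm d V, minor m (fun u => h (φ u)) =ᶠ[𝓝 v] fun u =>
      (Matrix.of fun c b => fderiv ℂ φ u (bs b) c).det * minor m h (φ u) := by
    intro m
    filter_upwards [hd] with u hu
    rw [hdet]
    exact minor_comp m hu.2 hu.1
  have h1 : ∀ i s, wn bs (Nm m fun u => h (φ u)) (l i)
      (minor (Function.update m (i₀ i) (cL e s)) fun u => h (φ u)) v =
      (fderiv ℂ φ v).det ^ (1 + 2 * (l i).length) *
      wn bs (Nm m h) (l i) (minor (Function.update m (i₀ i) (cL e s)) h) (φ v) := by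
    intro i s
    have h2 := wn_transf (ε := bs) (ε' := bs) (N := Nm m h) (N' := Nm m fun u => h (φ u))
      (g := minor (Function.update m (i₀ i) (cL e s)) h)
      (g' := minor (Function.update m (i₀ i) (cL e s)) fun u => h (φ u)) (ψ := φ)
      (Ψ := fun u => Matrix.of fun c b => fderiv ℂ φ u (bs b) c) (p := v) hφ
      (Eventually.of_forall fun u b => sum_bs _)
      (contDiffAt_det fun i j => (contDiffAt_pi.1 (contDiffAt_fd hφ (bs j))) i)
      (Nm_cd m hh) (minor_contDiffAt _ hh) ?_ (hm _) (l i)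
    · have h3 := h2.self_of_nhds
      simp only [hdet] at h3
      exact h3
    · filter_upwards [hd] with u hu
      have h4 : HasFDerivAt (fun u => h (φ u)) ((fderiv ℂ h (φ u)).comp (fderiv ℂ φ u)) u :=
        hu.2.hasFDerivAt.comp u hu.1.hasFDerivAt
      ext a b
      rw [Matrix.mul_apply]
      show m a (fderiv ℂ (fun u => h (φ u)) u (bs b)) = _
      rw [h4.fderiv, ContinuousLinearMap.comp_apply, fd_sum, map_sum]
      refine Finset.sum_congr rfl fun c _ => ?_
      rw [map_smul, smul_eq_mul, mul_comm]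
      rfl
  unfold KU
  simp only [h1]
  refine (Matrix.det_mul_column (fun i => (fderiv ℂ φ v).det ^ (1 + 2 * (l i).length))
    (Matrix.of fun i s => wn bs (Nm m h) (l i)
        (minor (Function.update m (i₀ i) (cL e s)) h) (φ v))).trans ?_
  rw [Finset.prod_pow_eq_pow_sum]
  rfl

theorem KU_map (m : Fm d V) {h : (Fin d → ℂ) → V} {v : Fin d → ℂ} (hh : ContDiffAt ℂ ω h v)
    (C : V →L[ℂ] V) : KU e i₀ l m (fun u => C (h u)) v = C.det * KU e i₀ l (fcomp m C) h v := by
  have hn : (ω : WithTop ℕ∞) ≠ 0 := by simp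
  have hm : ∀ m, minor m (fun u => C (h u)) =ᶠ[𝓝 v] minor (fun a => (m a).comp C) h := by
    intro m
    filter_upwards [hh.eventually (by simp)] with u hu
    exact minor_map' m (hu.differentiableAt hn) C
  have hN : Nm m (fun u => C (h u)) =ᶠ[𝓝 v] Nm (fcomp m C) h := by
    filter_upwards [hh.eventually (by simp)] with u hu
    have h1 : HasFDerivAt (fun u => C (h u)) (C.comp (fderiv ℂ h u)) u :=
      C.hasFDerivAt.comp u (hu.differentiableAt hn).hasFDerivAt
    ext a b
    show m a (fderiv ℂ (fun u => C (h u)) u (bs b)) = _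
    rw [h1.fderiv]
    rfl
  set T := LinearMap.toMatrix e e (C : V →ₗ[ℂ] V) with hT
  have hcL : ∀ s, (cL e s).comp C = ∑ s', T s s' • cL e s' := by
    intro s
    have h1 : ∀ v, cL e s v = e.repr v s := fun v => rfl
    refine ContinuousLinearMap.ext fun x => ?_
    rw [ContinuousLinearMap.comp_apply, sum_apply, h1]
    have h2 := LinearMap.toMatrix_mulVec_repr e e (C : V →ₗ[ℂ] V) x
    have h3 := congrFun h2 s
    rw [Matrix.mulVec, dotProduct] at h3
    exact h3.symm
  have key : ∀ i s, wn bs (Nm m fun u => C (h u)) (l i)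
      (minor (Function.update m (i₀ i) (cL e s)) fun u => C (h u)) v =
      ∑ s', T s s' * wn bs (Nm (fcomp m C) h) (l i)
        (minor (Function.update (fcomp m C) (i₀ i) (cL e s')) h) v := by
    intro i s
    have h1 : minor (Function.update m (i₀ i) (cL e s)) (fun u => C (h u)) =ᶠ[𝓝 v]
        fun u => ∑ s', T s s' *
          minor (Function.update (fcomp m C) (i₀ i) (cL e s')) h u := by
      filter_upwards [hm (Function.update m (i₀ i) (cL e s))] with u hu
      rw [hu]
      rw [← minor_update_sum]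
      congr 1
      funext a
      by_cases ha : a = i₀ i
      · subst ha
        rw [Function.update_self, Function.update_self, hcL]
      · rw [Function.update_of_ne ha, Function.update_of_ne ha]
        rfl
    have h2 := (wn_congr (ε := bs) hN h1 (l i)).self_of_nhds
    rw [h2]
    exact (wn_sum (Nm_cd _ hh) Finset.univ _
      (fun s' _ => minor_contDiffAt _ hh) (l i)).self_of_nhds
  have h3 : (Matrix.of fun i s => wn bs (Nm m fun u => C (h u)) (l i)
      (minor (Function.update m (i₀ i) (cL e s)) fun u => C (h u)) v) =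
      (Matrix.of fun i s => wn bs (Nm (fcomp m C) h) (l i)
        (minor (Function.update (fcomp m C) (i₀ i) (cL e s)) h) v) * T.transpose := by
    ext i s
    rw [Matrix.of_apply, key, Matrix.mul_apply]
    refine Finset.sum_congr rfl fun s' _ => ?_
    rw [Matrix.transpose_apply, Matrix.of_apply, mul_comm]
  unfold KU
  rw [h3, Matrix.det_mul, Matrix.det_transpose, mul_comm, hT, LinearMap.det_toMatrix]

theorem Nm_joint {P : Type*} [NormedAddCommGroup P] [NormedSpace ℂ P]
    {μ : P → Fm d V} {B : P × (Fin d → ℂ) → V} {x₀ : P × (Fin d → ℂ)}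
    (hμ : ContDiffAt ℂ ω μ x₀.1) (hB : ContDiffAt ℂ ω B x₀) (a b : Fin d) :
    ContDiffAt ℂ ω (fun x : P × (Fin d → ℂ) => Nm (μ x.1) (fun u => B (x.1, u)) x.2 a b) x₀ := by
  have h1 : (fun x : P × (Fin d → ℂ) => Nm (μ x.1) (fun u => B (x.1, u)) x.2 a b) =ᶠ[𝓝 x₀]
      fun x => μ x.1 a (fderiv ℂ B x ((0 : P), bs b)) := by
    filter_upwards [hB.eventually (by simp)] with x hx
    have h2 : HasFDerivAt (fun u : Fin d → ℂ => (x.1, u))
        (ContinuousLinearMap.inr ℂ P (Fin d → ℂ)) x.2 := hasFDerivAt_prodMk_right _ _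
    have h3 : HasFDerivAt (fun u : Fin d → ℂ => B (x.1, u))
        ((fderiv ℂ B x).comp (ContinuousLinearMap.inr ℂ P (Fin d → ℂ))) x.2 := by
      have h4 : HasFDerivAt B (fderiv ℂ B x) (x.1, x.2) :=
        (hx.differentiableAt (by simp)).hasFDerivAt
      exact h4.comp x.2 h2
    show μ x.1 a (fderiv ℂ (fun u => B (x.1, u)) x.2 (bs b)) = _
    rw [h3.fderiv]
    rfl
  refine ContDiffAt.congr_of_eventuallyEq ?_ h1
  have h5 : ContDiffAt ℂ ω (fun x : P × (Fin d → ℂ) => μ x.1 a) x₀ := by
    have h6 : ContDiffAt ℂ ω (fun x : P × (Fin d → ℂ) => μ x.1) x₀ := hμ.comp x₀ contDiffAt_fst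
    exact (contDiffAt_pi.1 h6) a
  exact h5.clm_apply (contDiffAt_fd hB _)

theorem KU_joint {P : Type*} [NormedAddCommGroup P] [NormedSpace ℂ P] {μ : P → Fm d V}
    {B : P × (Fin d → ℂ) → V} {x₀ : P × (Fin d → ℂ)} (hμ : ContDiffAt ℂ ω μ x₀.1)
    (hB : ContDiffAt ℂ ω B x₀) :
    ContDiffAt ℂ ω (fun x : P × (Fin d → ℂ) =>
      KU e i₀ l (μ x.1) (fun u => B (x.1, u)) x.2) x₀ := by
  let N : P × (Fin d → ℂ) → Matrix (Fin d) (Fin d) ℂ := fun x =>
    Nm (μ x.1) (fun u => B (x.1, u)) x.2
  let G : Fin g → Fin g → P × (Fin d → ℂ) → ℂ := fun i s x =>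
    minor (Function.update (μ x.1) (i₀ i) (cL e s)) (fun u => B (x.1, u)) x.2
  have hN : ∀ a b, ContDiffAt ℂ ω (fun x => N x a b) x₀ := fun a b => Nm_joint hμ hB a b
  have hG : ∀ i s, ContDiffAt ℂ ω (G i s) x₀ := by
    intro i s
    refine minor_joint (μ := fun p => Function.update (μ p) (i₀ i) (cL e s)) ?_ hB
    refine contDiffAt_pi.2 fun a => ?_
    by_cases ha : a = i₀ i
    · subst ha
      simp only [Function.update_self]
      exact contDiffAt_const
    · simp only [Function.update_of_ne ha]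
      exact contDiffAt_pi.1 hμ a
  have h1 : (fun x : P × (Fin d → ℂ) => KU e i₀ l (μ x.1) (fun u => B (x.1, u)) x.2) =ᶠ[𝓝 x₀]
      fun x => (Matrix.of fun i s => wn (fun b => ((0 : P), bs b)) N (l i) (G i s) x).det := by
    filter_upwards [(Filter.eventually_all).2 fun a => (Filter.eventually_all).2 fun b =>
        (hN a b).eventually (by simp),
      (Filter.eventually_all).2 fun i => (Filter.eventually_all).2 fun s =>
        (hG i s).eventually (by simp)] with x hx hx'
    unfold KU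
    congr 1
    ext i s
    exact wn_slice (N := N) hx (hx' i s) (l i)
  refine ContDiffAt.congr_of_eventuallyEq ?_ h1
  exact contDiffAt_det fun i s => contDiffAt_wn hN (hG i s) (l i)

theorem KU_bound {r R₀ R : ℝ} (hr : 0 < r) (hR : 0 ≤ R) (e : Basis (Fin g) ℂ V)
    (i₀ : Fin g → Fin d) (l : Fin g → List (Fin d)) : ∃ K : ℝ, 0 ≤ K ∧
    ∀ (m : Fm d V), ‖m‖ ≤ R₀ → ∀ (h : (Fin d → ℂ) → V) (v₀ : Fin d → ℂ),
      DifferentiableOn ℂ h (ball v₀ r) → (∀ v ∈ ball v₀ r, ‖fderiv ℂ h v‖ ≤ R) →
      ‖KU e i₀ l m h v₀‖ ≤ K := by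
  set R₁ : ℝ := |R₀| + ∑ s, ‖cL e s‖ + 1 with hR₁
  have hs0 : 0 ≤ ∑ s, ‖cL e s‖ := Finset.sum_nonneg fun _ _ => norm_nonneg _
  have hR₁0 : 0 < R₁ := by positivity
  obtain ⟨Km, hKm0, hKm⟩ := minor_le (d := d) (V := V) hR₁0.le hR
  have hB0 : 0 ≤ R₁ * R + Km := by positivity
  choose K₁ hK₁0 hK₁ using fun i : Fin g => wn_bound (d := d) hr hB0 (l i)
  set K₂ : ℝ := ∑ i, K₁ i with hK₂
  have hK₂0 : 0 ≤ K₂ := Finset.sum_nonneg fun i _ => hK₁0 i
  obtain ⟨K, hK0, hK⟩ := det_bound (k := g) hK₂0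
  refine ⟨K, hK0, fun m hm h v₀ hh hb => hK _ fun i s => ?_⟩
  have : CompleteSpace V := FiniteDimensional.complete ℂ V
  have han : ∀ v ∈ ball v₀ r, ContDiffAt ℂ ω h v := fun v hv =>
    (MF.analyticAt_of_differentiableOn isOpen_ball hh hv).contDiffAt
  have hmd : ∀ m, DifferentiableOn ℂ (minor m h) (ball v₀ r) := fun m v hv =>
    ((minor_contDiffAt m (han v hv)).differentiableAt (by simp)).differentiableWithinAt
  have hNd : ∀ a b, DifferentiableOn ℂ (fun u => Nm m h u a b) (ball v₀ r) := fun a b v hv =>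
    ((Nm_cd m (han v hv) a b).differentiableAt (by simp)).differentiableWithinAt
  have h1 : R₀ ≤ R₁ := by
    have := le_abs_self R₀
    linarith
  have hm1 : ∀ a, ‖m a‖ ≤ R₁ := fun a => (norm_le_pi_norm m a).trans (hm.trans h1)
  have hc : ‖cL e s‖ ≤ R₁ := by
    have h2 : ‖cL e s‖ ≤ ∑ s, ‖cL e s‖ :=
      Finset.single_le_sum (f := fun s => ‖cL e s‖) (fun _ _ => norm_nonneg _) (Finset.mem_univ s)
    have := abs_nonneg R₀
    linarith
  have hR₁R : 0 ≤ R₁ * R := by positivity
  refine (hK₁ i _ _ v₀ hNd (hmd _) (fun a b v hv => ?_) fun v hv => ?_).trans ?_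
  · have h3 : ‖m a (fderiv ℂ h v (bs b))‖ ≤ R₁ * R := by
      refine ((m a).le_opNorm _).trans (mul_le_mul (hm1 a) ?_ (norm_nonneg _) hR₁0.le)
      have h2 := (fderiv ℂ h v).le_opNorm (bs b)
      rw [norm_bs, mul_one] at h2
      exact h2.trans (hb v hv)
    exact h3.trans (by linarith)
  · refine (hKm _ h v (fun a => ?_) (hb v hv)).trans (by linarith)
    by_cases ha : a = i₀ i
    · subst ha
      rw [Function.update_self]
      exact hc
    · rw [Function.update_of_ne ha]
      exact hm1 a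
  · exact Finset.single_le_sum (f := K₁) (fun i _ => hK₁0 i) (Finset.mem_univ i)

theorem norm_fcomp_le {m : Fm d V} {C : V →L[ℂ] V} (hC : ‖C‖ ≤ 1) : ‖fcomp m C‖ ≤ ‖m‖ := by
  refine (pi_norm_le_iff_of_nonneg (norm_nonneg _)).2 fun a => ?_
  exact (((m a).opNorm_comp_le C).trans (mul_le_of_le_one_right (norm_nonneg _) hC)).trans
    (norm_le_pi_norm m a)

/-- nonvanishing of the generalized Wronskian -/
theorem KU_ne (e : Basis (Fin g) ℂ V) {h : (Fin d → ℂ) → V} {v₁ : Fin d → ℂ}
    (hh : ContDiffAt ℂ ω h v₁) {m : Fm d V} (hm : minor m h v₁ ≠ 0)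
    (hnd : ∀ l : V →L[ℂ] ℂ, (∀ᶠ v in 𝓝 v₁, ∀ ξ, l (fderiv ℂ h v ξ) = 0) → l = 0) :
    ∃ (i₀ : Fin g → Fin d) (l : Fin g → List (Fin d)), KU e i₀ l m h v₁ ≠ 0 := by
  obtain ⟨T, hT⟩ := exists_det_ne
    (fun (x : List (Fin d) × Fin d) (s : Fin g) =>
      wn bs (Nm m h) x.1 (minor (Function.update m x.2 (cL e s)) h) v₁)
    (fun c hc => by
      set L : V →L[ℂ] ℂ := ∑ s, c s • cL e s with hL
      have h1 : ∀ a, ∀ᶠ v in 𝓝 v₁, minor (Function.update m a L) h v = 0 := by
        intro a
        refine wn_zero (N := Nm m h) (Nm_cd m hh) hm (minor_contDiffAt _ hh) fun l => ?_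
        have h2 : (minor (Function.update m a L) h) =
            fun u => ∑ s, c s * minor (Function.update m a (cL e s)) h u := by
          funext u
          exact minor_update_sum m a Finset.univ c (fun s => cL e s) h u
        rw [h2, (wn_sum (Nm_cd m hh) Finset.univ c
          (fun s _ => minor_contDiffAt _ hh) l).self_of_nhds]
        exact hc (l, a)
      have h3 : L = 0 := by
        refine hnd L ?_
        filter_upwards [(Filter.eventually_all).2 h1,
          (minor_contDiffAt m hh).continuousAt.eventually_ne hm] with v h4 h5 ξ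
        set N : Matrix (Fin d) (Fin d) ℂ := Matrix.of fun a b => m a (fderiv ℂ h v (bs b)) with hN
        have h6 : Matrix.cramer N.transpose (fun b => L (fderiv ℂ h v (bs b))) = 0 := by
          funext a
          rw [Matrix.cramer_transpose_apply]
          have h7 : N.updateRow a (fun b => L (fderiv ℂ h v (bs b))) =
              Matrix.of fun a' b => (Function.update m a L) a' (fderiv ℂ h v (bs b)) := by
            ext a' b
            by_cases haa : a' = a
            · subst haa
              rw [Matrix.updateRow_self, Matrix.of_apply, Function.update_self]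
            · rw [Matrix.updateRow_ne haa, Matrix.of_apply, Function.update_of_ne haa, hN,
                Matrix.of_apply]
          rw [h7]
          exact h4 a
        have h8 := Matrix.mulVec_cramer N.transpose (fun b => L (fderiv ℂ h v (bs b)))
        rw [h6, Matrix.mulVec_zero, Matrix.det_transpose] at h8
        have h9 : ∀ b, L (fderiv ℂ h v (bs b)) = 0 := by
          intro b
          have h10 := congrFun h8 b
          rw [Pi.zero_apply, Pi.smul_apply, smul_eq_mul] at h10
          exact (mul_eq_zero.1 h10.symm).resolve_left h5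
        rw [fd_sum, map_sum]
        refine Finset.sum_eq_zero fun b _ => ?_
        rw [map_smul, h9, smul_zero]
      funext s
      have h4 := congrArg (fun F : V →L[ℂ] ℂ => F (e s)) h3
      simp only [hL, sum_apply, smul_apply, zero_apply, smul_eq_mul] at h4
      have h5 : ∀ s', cL e s' (e s) = if s' = s then 1 else 0 := by
        intro s'
        show e.coord s' (e s) = _
        rw [Basis.coord_apply, Basis.repr_self, Finsupp.single_apply]
        simp only [eq_comm]
      simp only [h5, mul_ite, mul_one, mul_zero, Finset.sum_ite_eq', Finset.mem_univ,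
        if_true] at h4
      exact h4)
  exact ⟨fun i => (T i).2, fun i => (T i).1, hT⟩

end KK

end Vale.Agent.P281.H349.U
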