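import Vale.Agent.P281.H349.U.Val
import Vale.Agent.P281.H713.GNC3

/-!
# P281, project T-U: the choice of the point, the tube, the tail, recurrence of power sums
-/

open scoped Topology ContDiff
open Set Filter Module Metric

namespace Vale.Agent.P281.H349.U

open Vale.Agent.P281 Vale.Agent.P281.H713

set_option linter.unusedSectionVars false

/-- power sums of complex numbers of modulus at most one, one of which is one -/
theorem pow_sum_large {κ : Type*} (s : Finset κ) (z : κ → ℂ) (hz : ∀ i ∈ s, ‖z i‖ ≤ 1) {i₁ : κ}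
    (hi₁ : i₁ ∈ s) (h1 : z i₁ = 1) (N : ℕ) : ∃ j ≥ N, 1 / 2 ≤ ‖∑ i ∈ s, z i ^ j‖ := by
  classical
  by_contra hcon
  push Not at hcon
  set s₁ := s.filter (fun i => z i = 1) with hs₁
  set s₂ := s.filter (fun i => ¬ z i = 1) with hs₂
  set C : ℝ := ∑ i ∈ s₂, 2 / ‖z i - 1‖ with hC
  obtain ⟨J, hJ⟩ := exists_nat_gt (2 * C)
  have hcard : (1 : ℝ) ≤ s₁.card := by
    have : 0 < s₁.card := Finset.card_pos.2 ⟨i₁, Finset.mem_filter.2 ⟨hi₁, h1⟩⟩
    exact_mod_cast this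
  have hsum : ∑ j ∈ Finset.range J, ∑ i ∈ s, z i ^ (N + j) =
      (s₁.card : ℂ) * J + ∑ i ∈ s₂, z i ^ N * ∑ j ∈ Finset.range J, z i ^ j := by
    rw [Finset.sum_comm, ← Finset.sum_filter_add_sum_filter_not s (fun i => z i = 1)]
    congr 1
    · have h2 : ∀ i ∈ s₁, ∑ j ∈ Finset.range J, z i ^ (N + j) = (J : ℂ) := by
        intro i hi
        rw [(Finset.mem_filter.1 hi).2]
        simp
      rw [Finset.sum_congr rfl h2, Finset.sum_const, nsmul_eq_mul]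
    · refine Finset.sum_congr rfl fun i _ => ?_
      rw [Finset.mul_sum]
      exact Finset.sum_congr rfl fun j _ => pow_add _ _ _
  have hle : ‖∑ j ∈ Finset.range J, ∑ i ∈ s, z i ^ (N + j)‖ ≤ J * (1 / 2) := by
    refine (norm_sum_le _ _).trans ?_
    calc ∑ j ∈ Finset.range J, ‖∑ i ∈ s, z i ^ (N + j)‖ ≤ ∑ _j ∈ Finset.range J, (1 / 2 : ℝ) :=
          Finset.sum_le_sum fun j _ => (hcon (N + j) (Nat.le_add_right _ _)).le
      _ = J * (1 / 2) := by rw [Finset.sum_const, Finset.card_range, nsmul_eq_mul]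
  have hC' : ‖∑ i ∈ s₂, z i ^ N * ∑ j ∈ Finset.range J, z i ^ j‖ ≤ C := by
    refine norm_sum_le_of_le _ fun i hi => ?_
    obtain ⟨hi1, hi2⟩ := Finset.mem_filter.1 hi
    have h3 : z i - 1 ≠ 0 := sub_ne_zero.2 hi2
    rw [geom_sum_eq hi2, norm_mul, norm_div, norm_pow]
    have h4 : ‖z i‖ ^ N ≤ 1 := pow_le_one₀ (norm_nonneg _) (hz i hi1)
    have h5 : ‖z i ^ J - 1‖ ≤ 2 := by
      refine (norm_sub_le _ _).trans ?_
      rw [norm_pow, norm_one]
      have := pow_le_one₀ (norm_nonneg (z i)) (hz i hi1) (n := J)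
      linarith
    have h6 : 0 ≤ ‖z i ^ J - 1‖ / ‖z i - 1‖ := by positivity
    calc ‖z i‖ ^ N * (‖z i ^ J - 1‖ / ‖z i - 1‖) ≤ 1 * (‖z i ^ J - 1‖ / ‖z i - 1‖) := by
          exact mul_le_mul_of_nonneg_right h4 h6
      _ = ‖z i ^ J - 1‖ / ‖z i - 1‖ := one_mul _
      _ ≤ 2 / ‖z i - 1‖ := by gcongr
  have hge : (J : ℝ) ≤ ‖∑ j ∈ Finset.range J, ∑ i ∈ s, z i ^ (N + j)‖ + C := by
    rw [hsum]
    have h3 := norm_sub_norm_le ((s₁.card : ℂ) * J)
      (-∑ i ∈ s₂, z i ^ N * ∑ j ∈ Finset.range J, z i ^ j)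
    rw [norm_neg, sub_neg_eq_add] at h3
    have h4 : ‖(s₁.card : ℂ) * J‖ = s₁.card * J := by
      rw [norm_mul, Complex.norm_natCast, Complex.norm_natCast]
    rw [h4] at h3
    have h5 : (J : ℝ) ≤ s₁.card * J := by
      have : (0 : ℝ) ≤ J := Nat.cast_nonneg _
      nlinarith
    linarith
  linarith

section Jets

variable {r : ℕ} {W : Type*} [NormedAddCommGroup W] [NormedSpace ℂ W]

/-- the jets of a family of functions -/
noncomputable def jets (a : Fin (r + 1) → W → ℂ) (v : W) (j : Fin (r + 1)) :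
    ℂ × (W →L[ℂ] ℂ) := (a j v, fderiv ℂ (a j) v)

theorem jets_mul {a : Fin (r + 1) → W → ℂ} {v : W} (hind : LinearIndependent ℂ (jets a v))
    (ha : ∀ j, DifferentiableAt ℂ (a j) v) {Φ : W → ℂ} (hΦ : DifferentiableAt ℂ Φ v)
    (hΦ0 : Φ v ≠ 0) : LinearIndependent ℂ (jets (fun j w => a j w * Φ w) v) := by
  rw [Fintype.linearIndependent_iff] at hind ⊢
  intro c hc
  refine hind c ?_
  have h1 := congrArg Prod.fst hc
  have h2 : ∀ ξ, ∑ j, c j * fderiv ℂ (fun w => a j w * Φ w) v ξ = 0 := by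
    intro ξ
    have h3 := congrArg (fun x : ℂ × (W →L[ℂ] ℂ) => x.2 ξ) hc
    simp only [jets, Prod.snd_sum, sum_apply] at h3
    exact h3
  simp only [jets, Prod.smul_fst, Prod.fst_sum, Prod.fst_zero, smul_eq_mul] at h1
  have h3 : ∑ j, c j * a j v = 0 := by
    have h4 : (∑ j, c j * a j v) * Φ v = 0 := by
      rw [Finset.sum_mul, ← h1]
      exact Finset.sum_congr rfl fun j _ => by ring
    exact (mul_eq_zero.1 h4).resolve_right hΦ0
  have h5 : ∀ j ξ, fderiv ℂ (fun w => a j w * Φ w) v ξ =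
      a j v * fderiv ℂ Φ v ξ + Φ v * fderiv ℂ (a j) v ξ := by
    intro j ξ
    have h6 : fderiv ℂ (fun w => a j w * Φ w) v =
        a j v • fderiv ℂ Φ v + Φ v • fderiv ℂ (a j) v :=
      ((ha j).hasFDerivAt.mul hΦ.hasFDerivAt).fderiv
    rw [h6]
    rfl
  have h6 : ∀ ξ, ∑ j, c j * fderiv ℂ (a j) v ξ = 0 := by
    intro ξ
    have h7 := h2 ξ
    simp only [h5] at h7
    have h8 : ∑ j, c j * (a j v * fderiv ℂ Φ v ξ + Φ v * fderiv ℂ (a j) v ξ) =
        (∑ j, c j * a j v) * fderiv ℂ Φ v ξ + Φ v * ∑ j, c j * fderiv ℂ (a j) v ξ := by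
      rw [Finset.sum_mul, Finset.mul_sum, ← Finset.sum_add_distrib]
      exact Finset.sum_congr rfl fun j _ => by ring
    rw [h8, h3, zero_mul, zero_add] at h7
    exact (mul_eq_zero.1 h7).resolve_left hΦ0
  refine Prod.ext ?_ ?_
  · simp only [jets, Prod.smul_fst, Prod.fst_sum, Prod.fst_zero, smul_eq_mul]
    exact h3
  · refine ContinuousLinearMap.ext fun ξ => ?_
    simp only [jets, Prod.snd_sum, sum_apply, Prod.snd_zero]
    exact h6 ξ

theorem jets_near {ι : Type*} [Finite ι] {Y : Type*} [NormedAddCommGroup Y] [NormedSpace ℂ Y]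
    {X₀ : ι → Y} (hX : LinearIndependent ℂ X₀) : ∃ ε : ℝ, 0 < ε ∧
    ∀ X : ι → Y, (∀ j, ‖X j - X₀ j‖ < ε) → LinearIndependent ℂ X := by
  have := Fintype.ofFinite ι
  obtain ⟨ε, hε, h1⟩ := Metric.eventually_nhds_iff.1 hX.eventually
  refine ⟨ε, hε, fun X h2 => h1 ?_⟩
  rw [dist_pi_lt_iff hε]
  intro j
  rw [dist_eq_norm]
  exact h2 j

/-- the jets of functions with independent quotients -/
theorem jets_of_rank {a : Fin (r + 1) → W → ℂ} {v : W} (ha : ∀ j, DifferentiableAt ℂ (a j) v)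
    (h0 : a 0 v ≠ 0) (hs : Function.Surjective fun (ξ : W) (k : Fin r) =>
      fderiv ℂ (fun u => a k.succ u / a 0 u) v ξ) : LinearIndependent ℂ (jets a v) := by
  rw [Fintype.linearIndependent_iff]
  intro c hc
  have h1 : ∑ j, c j * a j v = 0 := by
    have := congrArg Prod.fst hc
    simpa only [jets, Prod.smul_fst, Prod.fst_sum, Prod.fst_zero, smul_eq_mul] using this
  have h2 : ∀ ξ, ∑ j, c j * fderiv ℂ (a j) v ξ = 0 := by
    intro ξ
    have h3 := congrArg (fun x : ℂ × (W →L[ℂ] ℂ) => x.2 ξ) hc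
    simp only [jets, Prod.snd_sum, sum_apply] at h3
    exact h3
  have h3 : ∀ (k : Fin r) (ξ : W), fderiv ℂ (a k.succ) v ξ =
      a k.succ v / a 0 v * fderiv ℂ (a 0) v ξ +
        a 0 v * fderiv ℂ (fun w => a k.succ w / a 0 w) v ξ := by
    intro k ξ
    have h2 : DifferentiableAt ℂ (fun w => a k.succ w / a 0 w) v := by
      have h3 : (fun w => a k.succ w / a 0 w) = fun w => a k.succ w * (a 0 w)⁻¹ := by
        funext w
        rw [div_eq_mul_inv]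
      rw [h3]
      exact (ha k.succ).mul ((ha 0).inv h0)
    have h3 : a k.succ =ᶠ[𝓝 v] fun w => (a k.succ w / a 0 w) * a 0 w := by
      filter_upwards [(ha 0).continuousAt.eventually_ne h0] with w hw
      rw [div_mul_cancel₀ _ hw]
    have h4 : fderiv ℂ (fun w => (a k.succ w / a 0 w) * a 0 w) v =
        (a k.succ v / a 0 v) • fderiv ℂ (a 0) v +
          a 0 v • fderiv ℂ (fun w => a k.succ w / a 0 w) v :=
      (h2.hasFDerivAt.mul (ha 0).hasFDerivAt).fderiv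
    rw [h3.fderiv_eq, h4]
    rfl
  rw [Fin.sum_univ_succ] at h1
  have h4 : ∀ ξ, ∑ k : Fin r, c k.succ * fderiv ℂ (fun w => a k.succ w / a 0 w) v ξ = 0 := by
    intro ξ
    have h5 := h2 ξ
    rw [Fin.sum_univ_succ] at h5
    simp only [h3] at h5
    have h6 : a 0 v * ∑ k : Fin r, c k.succ * fderiv ℂ (fun w => a k.succ w / a 0 w) v ξ =
        (c 0 * fderiv ℂ (a 0) v ξ + ∑ k : Fin r, c k.succ * (a k.succ v / a 0 v *
          fderiv ℂ (a 0) v ξ + a 0 v * fderiv ℂ (fun w => a k.succ w / a 0 w) v ξ)) -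
        (c 0 * a 0 v + ∑ k : Fin r, c k.succ * a k.succ v) * (fderiv ℂ (a 0) v ξ / a 0 v) := by
      simp only [mul_add, Finset.sum_add_distrib, add_mul, Finset.sum_mul, Finset.mul_sum]
      have h7 : ∀ k : Fin r, c k.succ * a k.succ v * (fderiv ℂ (a 0) v ξ / a 0 v) =
          c k.succ * (a k.succ v / a 0 v * fderiv ℂ (a 0) v ξ) := by
        intro k
        field_simp
      have h8 : c 0 * a 0 v * (fderiv ℂ (a 0) v ξ / a 0 v) = c 0 * fderiv ℂ (a 0) v ξ := by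
        field_simp
      have h9 : ∀ k : Fin r, c k.succ * (a 0 v * fderiv ℂ (fun w => a k.succ w / a 0 w) v ξ) =
          a 0 v * (c k.succ * fderiv ℂ (fun w => a k.succ w / a 0 w) v ξ) := by
        intro k
        ring
      simp only [h7, h8, h9]
      ring
    rw [h5, h1, zero_mul, sub_zero] at h6
    exact (mul_eq_zero.1 h6).resolve_left h0
  have h5 : ∀ k : Fin r, c k.succ = 0 := by
    intro k
    obtain ⟨ξ, hξ⟩ := hs (Pi.single k 1)
    have h6 := h4 ξ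
    have h7 : ∀ k', fderiv ℂ (fun w => a k'.succ w / a 0 w) v ξ = (Pi.single k 1 : Fin r → ℂ) k' :=
      fun k' => congrFun hξ k'
    simp only [h7, Pi.single_apply, mul_ite, mul_one, mul_zero, Finset.sum_ite_eq',
      Finset.mem_univ, if_true] at h6
    exact h6
  intro j
  refine Fin.cases ?_ h5 j
  simp only [h5, zero_mul, Finset.sum_const_zero, add_zero] at h1
  exact (mul_eq_zero.1 h1).resolve_right h0

end Jets

section Fix

variable {d g n r : ℕ} {V : Type} [NormedAddCommGroup V] [InnerProductSpace ℂ V]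
  [FiniteDimensional ℂ V] {Q : (Fin n → ℝ) → (Fin n → ℝ) → ℝ}
  {π₀ : (Fin n → ℝ) ≃L[ℝ] V} {G₀ : V ≃L[ℂ] V}
  {e : Basis (Fin g) ℂ V} {i₀ : Fin g → Fin d} {l : Fin g → List (Fin d)}
  {m : Fm d V} {k D : ℕ} {Ψ : ((Fin d → ℂ) → V) → (Fin d → ℂ) → ℂ}

theorem KU_cd {h : (Fin d → ℂ) → V} {v : Fin d → ℂ} (hh : ContDiffAt ℂ ω h v)
    (m : Fm d V) : ContDiffAt ℂ ω (fun x : Fm d V × (Fin d → ℂ) => KU e i₀ l x.1 h x.2) (m, v) :=
  KU_joint (P := Fm d V) (μ := fun m => m) (B := fun x => h x.2) (x₀ := (m, v))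
    contDiffAt_id (ContDiffAt.comp (f := Prod.snd) (m, v) hh contDiffAt_snd)

theorem KU_cd' {h : (Fin d → ℂ) → V} {v : Fin d → ℂ} (hh : ContDiffAt ℂ ω h v)
    (m : Fm d V) : ContDiffAt ℂ ω (fun u => KU e i₀ l m h u) v :=
  (KU_cd (e := e) (i₀ := i₀) (l := l) hh m).comp v (contDiffAt_const.prodMk contDiffAt_id)

theorem tu_cd (hΨ : IsHP D Ψ) {h : (Fin d → ℂ) → V} {v : Fin d → ℂ} (hh : ContDiffAt ℂ ω h v) :
    ContDiffAt ℂ ω (fun u => tu e i₀ l m k Ψ h u) v :=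
  ((KU_cd' hh m).pow k).mul (hp_cd hΨ hh)

/-- the maximum dominates nearby -/
theorem tube {h : (Fin d → ℂ) → V} {v₁ : Fin d → ℂ} (hh : ContDiffAt ℂ ω h v₁) {R₀ : ℝ}
    (hm0 : KU e i₀ l m h v₁ ≠ 0)
    (hmax : ∀ m' : Fm d V, ‖m'‖ ≤ R₀ → ‖KU e i₀ l m' h v₁‖ ≤ ‖KU e i₀ l m h v₁‖) {c : ℝ}
    (hc : 1 < c) : ∀ᶠ v in 𝓝 v₁, ∀ m' : Fm d V, ‖m'‖ ≤ R₀ →
      ‖KU e i₀ l m' h v‖ ≤ c * ‖KU e i₀ l m h v‖ := by
  have : ProperSpace (Fm d V) := FiniteDimensional.proper ℂ (Fm d V)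
  have hK : IsCompact (closedBall (0 : Fm d V) R₀) := isCompact_closedBall _ _
  have h1 := hK.eventually_forall_of_forall_eventually (x₀ := v₁)
    (P := fun v m' => ‖KU e i₀ l m' h v‖ ≤ c * ‖KU e i₀ l m h v‖) (fun m' hm' => by
      have h2 : ContinuousAt (fun x : (Fin d → ℂ) × Fm d V => ‖KU e i₀ l x.2 h x.1‖)
          (v₁, m') := by
        have h3 := (KU_cd (e := e) (i₀ := i₀) (l := l) hh m').continuousAt
        have h4 : ContinuousAt (fun x : (Fin d → ℂ) × Fm d V => (x.2, x.1)) (v₁, m') :=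
          continuous_swap.continuousAt
        exact (ContinuousAt.comp (f := fun x : (Fin d → ℂ) × Fm d V => (x.2, x.1)) h3 h4).norm
      have h5 : ContinuousAt (fun x : (Fin d → ℂ) × Fm d V => c * ‖KU e i₀ l m h x.1‖)
          (v₁, m') := by
        have h6 := (KU_cd' (e := e) (i₀ := i₀) (l := l) hh m).continuousAt
        exact (ContinuousAt.comp (f := Prod.fst) (x := (v₁, m')) h6 continuousAt_fst).norm.const_mul c
      have h7 : ‖KU e i₀ l m' h v₁‖ < c * ‖KU e i₀ l m h v₁‖ := by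
        have h8 := hmax m' (mem_closedBall_zero_iff.1 hm')
        have h9 : 0 < ‖KU e i₀ l m h v₁‖ := norm_pos_iff.2 hm0
        nlinarith
      exact (h2.eventually_lt h5 h7).mono fun x hx => hx.le)
  filter_upwards [h1] with v hv m' hm'
  exact hv m' (mem_closedBall_zero_iff.2 hm')

/-- the tail of the series -/
theorem tail_bound (hn : 0 < n) (h₀ : IsPol Q π₀ G₀) {h : (Fin d → ℂ) → V} {v : Fin d → ℂ}
    (hh : ContDiffAt ℂ ω h v) {R₀ c : ℝ} (hm : ‖m‖ ≤ R₀)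
    (htube : ∀ m' : Fm d V, ‖m'‖ ≤ R₀ → ‖KU e i₀ l m' h v‖ ≤ c * ‖KU e i₀ l m h v‖)
    {R K : ℝ} (hR : ∀ m : Fin d → (V →L[ℂ] ℂ), (∀ a, ‖m a‖ ≤ 1) → ‖minor m h v‖ ≤ R)
    (hK : ∀ (h : (Fin d → ℂ) → V) (v : Fin d → ℂ),
      (∀ m : Fin d → (V →L[ℂ] ℂ), (∀ a, ‖m a‖ ≤ 1) → ‖minor m h v‖ ≤ R) → ‖Ψ h v‖ ≤ K)
    {k' j : ℕ} (hc : 0 < c) (hnu : ∀ M : spq Q, M ∉ unitF hn h₀ → ∀ j : ℕ,
      (c * c * ‖(LL π₀ π₀ (mx M)).det‖⁻¹) ^ (2 * k' * j) ≤
        ‖(LL π₀ π₀ (mx M)).det‖⁻¹ ^ (k' * j)) (hj : 2 * (n * n + 1) ≤ k' * j) :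
    ‖∑' M : spq Q, tu e i₀ l m (2 * k' * j) Ψ (fun u => Cc π₀ G₀ M (h u)) v -
      ∑ M ∈ unitF hn h₀, tu e i₀ l m (2 * k' * j) Ψ (fun u => Cc π₀ G₀ M (h u)) v‖ ≤
      K * ‖KU e i₀ l m h v‖ ^ (2 * k' * j) * (c ^ (2 * k' * j))⁻¹ * errT hn h₀ (k' * j) := by
  have hd : DifferentiableAt ℂ h v := hh.differentiableAt (by simp)
  have hK0 : 0 ≤ K := (norm_nonneg _).trans (hK h v hR)
  refine tsum_sub_le hn h₀ hj fun M hM => ?_
  unfold tu
  rw [norm_mul, norm_pow, KU_map m hh, norm_mul, Cc_det h₀]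
  have h1 := htube (fcomp m (Cc π₀ G₀ M)) ((norm_fcomp_le (Cc_norm h₀ M)).trans hm)
  have h2 := hK (fun u => Cc π₀ G₀ M (h u)) v fun m hm => minor_contr hd hR (Cc_norm h₀ M) m hm
  set δ := ‖(LL π₀ π₀ (mx M)).det‖⁻¹ with hδ
  have hδ0 : 0 ≤ δ := by positivity
  have hck : 0 < c ^ (2 * k' * j) := by positivity
  have h3 : (c * δ) ^ (2 * k' * j) ≤ (c ^ (2 * k' * j))⁻¹ * δ ^ (k' * j) := by
    have h4 := hnu M hM j
    rw [mul_assoc c c δ, mul_pow c] at h4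
    rw [inv_mul_eq_div, le_div_iff₀ hck, mul_comm]
    exact h4
  calc (δ * ‖KU e i₀ l (fcomp m (Cc π₀ G₀ M)) h v‖) ^ (2 * k' * j) *
        ‖Ψ (fun u => Cc π₀ G₀ M (h u)) v‖
      ≤ (δ * (c * ‖KU e i₀ l m h v‖)) ^ (2 * k' * j) * K := by gcongr
    _ = K * ‖KU e i₀ l m h v‖ ^ (2 * k' * j) * (c * δ) ^ (2 * k' * j) := by
        rw [mul_pow, mul_pow, mul_pow]
        ring
    _ ≤ K * ‖KU e i₀ l m h v‖ ^ (2 * k' * j) * ((c ^ (2 * k' * j))⁻¹ * δ ^ (k' * j)) := by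
        gcongr
    _ = K * ‖KU e i₀ l m h v‖ ^ (2 * k' * j) * (c ^ (2 * k' * j))⁻¹ * δ ^ (k' * j) := by ring

/-- the series is holomorphic at the base point -/
theorem s_cd (hn : 0 < n) (hk : n * n + 1 ≤ k) (hΨ : IsHP D Ψ) (h₀ : IsPol Q π₀ G₀)
    {h : (Fin d → ℂ) → V} {v : Fin d → ℂ} (hh : ContDiffAt ℂ ω h v) :
    ContDiffAt ℂ ω (fun v => ∑' M : spq Q,
      tu e i₀ l m k Ψ (fun u => Cc π₀ G₀ M (h u)) v) v := by
  have hb : ContDiffAt ℂ ω (fun x : ℂ × (Fin d → ℂ) => (G₀.symm : V →L[ℂ] V) (h x.2))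
      ((0 : ℂ), v) :=
    ContDiffAt.comp (f := Prod.snd) (g := fun u => (G₀.symm : V →L[ℂ] V) (h u)) ((0 : ℂ), v)
      (cd_map hh _) contDiffAt_snd
  have h1 := gvl_analytic (T := tu e i₀ l m k Ψ) (Q := Q) (E := ℂ) hn hk
    (isTerm_tu e i₀ l m k hΨ) h₀
    (U := univ) isOpen_univ (P := fun _ => π₀) (fun x => differentiableOn_const _)
    (fun z _ => ⟨G₀, h₀⟩) (B := fun x => (G₀.symm : V →L[ℂ] V) (h x.2)) (x₀ := ((0 : ℂ), v))
    (mem_univ _) hb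
  have h2 : (fun v => ∑' M : spq Q, tu e i₀ l m k Ψ (fun u => Cc π₀ G₀ M (h u)) v) =
      fun v => gval Q π₀ G₀ (tu e i₀ l m k Ψ) π₀ (fun u => (G₀.symm : V →L[ℂ] V) (h u)) v := by
    funext v
    unfold gval
    refine tsum_congr fun M => ?_
    have h3 : (fun u => LN π₀ G₀ π₀ (mx M) ((G₀.symm : V →L[ℂ] V) (h u))) =
        fun u => Cc π₀ G₀ M (h u) := by
      funext u
      rfl
    rw [h3]
  rw [h2]
  exact slice_cd h1.contDiffAt

/-- the choice of the point -/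
theorem nc_prep (hn : 0 < n) (h₀ : IsPol Q π₀ G₀) {h : (Fin d → ℂ) → V} {v₀ : Fin d → ℂ}
    (hh : ContDiffAt ℂ ω h v₀) {t : Fin (r + 1) → Fm d V} (ht0 : minor (t 0) h v₀ ≠ 0)
    (ht : LinearIndependent ℂ (jets (fun j => minor (t j) h) v₀))
    (hfull : ∀ l : V →L[ℂ] ℂ, (∀ᶠ v in 𝓝 v₀, l (h v) = l (h v₀)) → l = 0)
    (e : Basis (Fin g) ℂ V) {good : (Fin d → ℂ) → Prop} (hgood : ∀ᶠ v in 𝓝 v₀, good v) :
    ∃ v₁, good v₁ ∧ ContDiffAt ℂ ω h v₁ ∧
      LinearIndependent ℂ (jets (fun j => minor (t j) h) v₁) ∧ minor (t 0) h v₁ ≠ 0 ∧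
      (∀ M ∈ unitF hn h₀, (∀ᶠ w in 𝓝 v₁, ∀ i, qrel (Cc π₀ G₀ M) h i w = 0) ∨
        ∃ i, qrel (Cc π₀ G₀ M) h i v₁ ≠ 0) ∧
      ∃ (i₀ : Fin g → Fin d) (l : Fin g → List (Fin d)) (R₀ : ℝ) (m : Fm d V),
        ‖m‖ ≤ R₀ ∧ KU e i₀ l m h v₁ ≠ 0 ∧
        ∀ m' : Fm d V, ‖m'‖ ≤ R₀ → ‖KU e i₀ l m' h v₁‖ ≤ ‖KU e i₀ l m h v₁‖ := by
  have hn' : (ω : WithTop ℕ∞) ≠ 0 := by simp
  obtain ⟨δ, hδ, hball⟩ := Metric.eventually_nhds_iff_ball.1 (hh.eventually (by simp))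
  obtain ⟨ε, hε, hnear⟩ := jets_near ht
  have hjc : ∀ j, ContinuousAt (fun v => jets (fun j => minor (t j) h) v j) v₀ := by
    intro j
    have h1 := minor_contDiffAt (t j) hh
    exact h1.continuousAt.prodMk (h1.fderiv_right (m := ω) (by simp)).continuousAt
  have hje : ∀ᶠ v in 𝓝 v₀, LinearIndependent ℂ (jets (fun j => minor (t j) h) v) := by
    have h1 : ∀ᶠ v in 𝓝 v₀, ∀ j, ‖jets (fun j => minor (t j) h) v j -
        jets (fun j => minor (t j) h) v₀ j‖ < ε := by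
      refine (Filter.eventually_all).2 fun j => ?_
      have h2 : ContinuousAt (fun v => ‖jets (fun j => minor (t j) h) v j -
          jets (fun j => minor (t j) h) v₀ j‖) v₀ := ((hjc j).sub continuousAt_const).norm
      exact h2.eventually_lt_const (by
        show ‖jets (fun j => minor (t j) h) v₀ j - jets (fun j => minor (t j) h) v₀ j‖ < ε
        rw [sub_self, norm_zero]
        exact hε)
    exact h1.mono fun v hv => hnear _ hv
  obtain ⟨O, hO1, hO2, hO3⟩ := _root_.eventually_nhds_iff.1 (((hgood.and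
    (ball_mem_nhds v₀ hδ)).and hje).and
    ((minor_contDiffAt (t 0) hh).continuousAt.eventually_ne ht0))
  have hOb : ∀ v ∈ O, v ∈ ball v₀ δ := fun v hv => (hO1 v hv).1.1.2
  -- nondegeneracy
  have hnd2 : ∀ v₁ ∈ ball v₀ δ, ∀ L : V →L[ℂ] ℂ,
      (∀ᶠ v in 𝓝 v₁, ∀ ξ, L (fderiv ℂ h v ξ) = 0) → L = 0 := by
    intro v₁ hv₁ L hL
    have hfd : ∀ v ∈ ball v₀ δ, HasFDerivAt (fun u => L (h u)) (L.comp (fderiv ℂ h v)) v :=
      fun v hv => L.hasFDerivAt.comp v (((hball v hv).differentiableAt hn').hasFDerivAt)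
    have han : AnalyticOnNhd ℂ (fun v => L.comp (fderiv ℂ h v)) (ball v₀ δ) := by
      intro v hv
      have h1 : ContDiffAt ℂ ω (fderiv ℂ h) v := (hball v hv).fderiv_right (by simp)
      exact (contDiffAt_const.clm_comp h1).analyticAt
    have hz : ∀ v ∈ ball v₀ δ, L.comp (fderiv ℂ h v) = 0 := by
      have h1 := han.eqOn_zero_of_preconnected_of_eventuallyEq_zero
        (convex_ball v₀ δ).isPreconnected hv₁ (by
          filter_upwards [hL] with v hv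
          exact ContinuousLinearMap.ext hv)
      exact fun v hv => h1 hv
    refine hfull L (eventually_of_mem (ball_mem_nhds v₀ hδ) fun v hv => ?_)
    refine isOpen_ball.is_const_of_fderiv_eq_zero (𝕜 := ℂ) (f := fun u => L (h u))
      (convex_ball v₀ δ).isPreconnected ?_ ?_ hv (mem_ball_self hδ)
    · exact fun u hu => (hfd u hu).differentiableAt.differentiableWithinAt
    · intro u hu
      rw [(hfd u hu).fderiv]
      exact hz u hu
  obtain ⟨v₁, hv₁, hgen⟩ := exists_generic (unitF hn h₀)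
    (F := fun M i v => qrel (Cc π₀ G₀ M) h i v) hO2 ⟨v₀, hO3⟩ (fun M i v hv => by
      have h1 : ContDiffAt ℂ ω h v := hball v (hOb v hv)
      have h2 := cd_map h1 (Cc π₀ G₀ M)
      exact (((minor_contDiffAt i.1 h2).continuousAt.mul (minor_contDiffAt i.2 h1).continuousAt).sub
        ((minor_contDiffAt i.2 h2).continuousAt.mul
          (minor_contDiffAt i.1 h1).continuousAt)).continuousWithinAt)
  obtain ⟨⟨⟨hg1, hg2⟩, hg3⟩, hg4⟩ := hO1 v₁ hv₁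
  have hh₁ : ContDiffAt ℂ ω h v₁ := hball v₁ hg2
  obtain ⟨i₀, l, hKK⟩ := KU_ne e hh₁ hg4 (hnd2 v₁ hg2)
  have : ProperSpace (Fm d V) := FiniteDimensional.proper ℂ (Fm d V)
  set R₀ : ℝ := ‖t 0‖ with hR₀
  have hcont : ContinuousOn (fun m' : Fm d V => ‖KU e i₀ l m' h v₁‖)
      (closedBall (0 : Fm d V) R₀) := by
    intro m' _
    have h1 := (KU_cd (e := e) (i₀ := i₀) (l := l) hh₁ m').continuousAt
    have h2 : ContinuousAt (fun m' : Fm d V => (m', v₁)) m' := by fun_prop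
    exact (ContinuousAt.comp (f := fun m' : Fm d V => (m', v₁)) h1 h2).norm.continuousWithinAt
  obtain ⟨m, hm, hmax⟩ := (isCompact_closedBall (0 : Fm d V) R₀).exists_isMaxOn
    ⟨t 0, by rw [mem_closedBall_zero_iff]⟩ hcont
  have hmax' : ∀ m' : Fm d V, ‖m'‖ ≤ R₀ → ‖KU e i₀ l m' h v₁‖ ≤ ‖KU e i₀ l m h v₁‖ :=
    fun m' hm' => hmax (mem_closedBall_zero_iff.2 hm')
  refine ⟨v₁, hg1, hh₁, hg3, hg4, hgen, i₀, l, R₀, m, mem_closedBall_zero_iff.1 hm, ?_, hmax'⟩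
  intro h0
  have h1 := hmax' (t 0) le_rfl
  rw [h0, norm_zero] at h1
  exact hKK (norm_le_zero_iff.1 h1)

end Fix

end Vale.Agent.P281.H349.U
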