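import Vale.Agent.P281.H349.U.Kk

/-!
# P281, project T-U: terms of the series, and the series
-/

open scoped Topology ContDiff
open Set Filter Module Metric

namespace Vale.Agent.P281.H349.U

open Vale.Agent.P281 Vale.Agent.P281.H713

set_option linter.unusedSectionVars false

section Term

variable {d g : ℕ} {V : Type} [NormedAddCommGroup V] [InnerProductSpace ℂ V]
  [FiniteDimensional ℂ V]

/-- the terms of the series, of weight `wt` for changes of coordinates, and bounded by the power `k`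
of the determinant of a contraction -/
structure IsTerm (wt k : ℕ) (T : ((Fin d → ℂ) → V) → (Fin d → ℂ) → ℂ) : Prop where
  congr : ∀ {h h' : (Fin d → ℂ) → V} {v : Fin d → ℂ}, h =ᶠ[𝓝 v] h' → T h v = T h' v
  comp : ∀ {h : (Fin d → ℂ) → V} {φ : (Fin d → ℂ) → (Fin d → ℂ)} {v : Fin d → ℂ},
    ContDiffAt ℂ ω φ v → ContDiffAt ℂ ω h (φ v) →
    T (fun u => h (φ u)) v = (fderiv ℂ φ v).det ^ wt * T h (φ v)
  shift : ∀ {h : (Fin d → ℂ) → V} {v : Fin d → ℂ}, ContDiffAt ℂ ω h v → ∀ c : V,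
    T (fun u => h u + c) v = T h v
  joint : ∀ {P : Type} [NormedAddCommGroup P] [NormedSpace ℂ P] (B : P × (Fin d → ℂ) → V)
    (x₀ : P × (Fin d → ℂ)), ContDiffAt ℂ ω B x₀ →
    ContDiffAt ℂ ω (fun x : P × (Fin d → ℂ) => T (fun u => B (x.1, u)) x.2) x₀
  bound : ∀ r R : ℝ, 0 < r → 0 ≤ R → ∃ K : ℝ, 0 ≤ K ∧ ∀ C : V →L[ℂ] V, ‖C‖ ≤ 1 →
    ∀ (h : (Fin d → ℂ) → V) (v₀ : Fin d → ℂ), DifferentiableOn ℂ h (ball v₀ r) →
      (∀ v ∈ ball v₀ r, ‖fderiv ℂ h v‖ ≤ R) → ‖T (fun u => C (h u)) v₀‖ ≤ K * ‖C.det‖ ^ k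

/-- the terms of the series -/
noncomputable def tu (e : Basis (Fin g) ℂ V) (i₀ : Fin g → Fin d)
    (l : Fin g → List (Fin d)) (m : Fm d V) (k : ℕ)
    (Ψ : ((Fin d → ℂ) → V) → (Fin d → ℂ) → ℂ) (h : (Fin d → ℂ) → V) (v : Fin d → ℂ) : ℂ :=
  KU e i₀ l m h v ^ k * Ψ h v

theorem hp_comp {D : ℕ} {Ψ : ((Fin d → ℂ) → V) → (Fin d → ℂ) → ℂ} (hΨ : IsHP D Ψ)
    {h : (Fin d → ℂ) → V} {φ : (Fin d → ℂ) → (Fin d → ℂ)} {v : Fin d → ℂ}
    (hφ : ContDiffAt ℂ ω φ v) (hh : ContDiffAt ℂ ω h (φ v)) :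
    Ψ (fun u => h (φ u)) v = (fderiv ℂ φ v).det ^ D * Ψ h (φ v) :=
  hΨ.scale h _ (φ v) v _ fun m => minor_comp m (hh.differentiableAt (by simp))
    (hφ.differentiableAt (by simp))

theorem hp_congr {D : ℕ} {Ψ : ((Fin d → ℂ) → V) → (Fin d → ℂ) → ℂ} (hΨ : IsHP D Ψ)
    {h h' : (Fin d → ℂ) → V} {v : Fin d → ℂ} (hh : h =ᶠ[𝓝 v] h') : Ψ h v = Ψ h' v := by
  rw [hΨ.scale h' h v v 1 fun m => by rw [one_mul]; exact minor_congr m hh, one_pow, one_mul]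

theorem hp_shift {D : ℕ} {Ψ : ((Fin d → ℂ) → V) → (Fin d → ℂ) → ℂ} (hΨ : IsHP D Ψ)
    (h : (Fin d → ℂ) → V) (v : Fin d → ℂ) (c : V) : Ψ (fun u => h u + c) v = Ψ h v := by
  rw [hΨ.scale h (fun u => h u + c) v v 1 fun m => ?_, one_pow, one_mul]
  rw [one_mul, minor_eq, minor_eq, fderiv_add_const]

theorem isTerm_tu (e : Basis (Fin g) ℂ V) (i₀ : Fin g → Fin d) (l : Fin g → List (Fin d))
    (m : Fm d V) (k : ℕ) {D : ℕ} {Ψ : ((Fin d → ℂ) → V) → (Fin d → ℂ) → ℂ} (hΨ : IsHP D Ψ) :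
    IsTerm (k * nu l + D) k (tu e i₀ l m k Ψ) where
  congr hh := by
    unfold tu
    rw [KU_congr m hh, hp_congr hΨ hh]
  comp hφ hh := by
    unfold tu
    rw [KU_comp m hφ hh, hp_comp hΨ hφ hh, mul_pow, ← pow_mul, pow_add, mul_comm (nu l) k]
    ring
  shift hh c := by
    unfold tu
    rw [KU_shift, hp_shift hΨ]
  joint B x₀ hB :=
    ((KU_joint (μ := fun _ => m) contDiffAt_const hB).pow k).mul (hΨ.joint B x₀ hB)
  bound r R hr hR := by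
    obtain ⟨K₁, hK₁0, hK₁⟩ := KU_bound (R₀ := ‖m‖) hr hR e i₀ l
    obtain ⟨R', hR'0, hR'⟩ := minor_le (d := d) (V := V) zero_le_one hR
    obtain ⟨K₂, hK₂0, hK₂⟩ := hΨ.bdd R'
    refine ⟨K₁ ^ k * K₂, by positivity, fun C hC h v₀ hh hb => ?_⟩
    have : CompleteSpace V := FiniteDimensional.complete ℂ V
    have hv₀ : v₀ ∈ ball v₀ r := mem_ball_self hr
    have han : ContDiffAt ℂ ω h v₀ :=
      (MF.analyticAt_of_differentiableOn isOpen_ball hh hv₀).contDiffAt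
    unfold tu
    rw [KU_map m han C, norm_mul, norm_pow, norm_mul]
    have h1 := hK₁ (fcomp m C) (norm_fcomp_le hC) h v₀ hh hb
    have h2 := hK₂ (fun u => C (h u)) v₀ fun m hm =>
      minor_contr (han.differentiableAt (by simp))
        (fun m hm => hR' m h v₀ hm (hb v₀ hv₀)) hC m hm
    calc (‖C.det‖ * ‖KU e i₀ l (fcomp m C) h v₀‖) ^ k * ‖Ψ (fun u => C (h u)) v₀‖
        ≤ (‖C.det‖ * K₁) ^ k * K₂ := by gcongr
      _ = K₁ ^ k * K₂ * ‖C.det‖ ^ k := by ring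

end Term

section Val

variable {d n : ℕ} {V : Type} [NormedAddCommGroup V] [InnerProductSpace ℂ V]
  [FiniteDimensional ℂ V] {Q : (Fin n → ℝ) → (Fin n → ℝ) → ℝ}
  {wt k : ℕ} {T : ((Fin d → ℂ) → V) → (Fin d → ℂ) → ℂ}
  {π₀ : (Fin n → ℝ) ≃L[ℝ] V} {G₀ : V ≃L[ℂ] V}

theorem gvl_congr (hT : IsTerm wt k T) {P : (Fin n → ℝ) ≃L[ℝ] V} {b b' : (Fin d → ℂ) → V}
    {v : Fin d → ℂ} (h : b =ᶠ[𝓝 v] b') : gval Q π₀ G₀ T P b v = gval Q π₀ G₀ T P b' v := by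
  unfold gval
  congr 1
  funext M
  refine hT.congr ?_
  filter_upwards [h] with u hu
  rw [hu]

theorem gvl_comp (hT : IsTerm wt k T) {P : (Fin n → ℝ) ≃L[ℝ] V} {b : (Fin d → ℂ) → V}
    {φ : (Fin d → ℂ) → (Fin d → ℂ)} {v : Fin d → ℂ} (hφ : ContDiffAt ℂ ω φ v)
    (hb : ContDiffAt ℂ ω b (φ v)) :
    gval Q π₀ G₀ T P (fun u => b (φ u)) v =
      (fderiv ℂ φ v).det ^ wt * gval Q π₀ G₀ T P b (φ v) := by
  unfold gval
  rw [← tsum_mul_left]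
  congr 1
  funext M
  exact hT.comp (h := fun u => LN π₀ G₀ P (mx M) (b u)) hφ
    ((ContinuousLinearMap.contDiff _).contDiffAt.comp _ hb)

theorem gvl_affine (hT : IsTerm wt k T) {P P' : (Fin n → ℝ) ≃L[ℝ] V} {G : V ≃L[ℂ] V}
    (hG : IsPeriodChange Q P P' G) (c : V) {b : (Fin d → ℂ) → V} {v : Fin d → ℂ}
    (hb : ContDiffAt ℂ ω b v) :
    gval Q π₀ G₀ T P' (fun s => G (b s) + c) v = gval Q π₀ G₀ T P b v := by
  obtain ⟨M', hM'⟩ := IsPeriodChange.exists_mx hG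
  unfold gval
  rw [← (Equiv.mulLeft M').tsum_eq]
  congr 1
  funext M
  show T (fun u => LN π₀ G₀ P' (mx (M' * M)) (G (b u) + c)) v = _
  have h2 : TT π₀ P' (mx (M' * M)) =
      ((G : V →L[ℂ] V).restrictScalars ℝ).comp (TT π₀ P (mx M)) := by
    ext v
    show P' (mact (mx (M' * M)) (π₀.symm v)) = G (P (mact (mx M) (π₀.symm v)))
    rw [mx_mul, mact_mul, hM']
  have h3 : LL π₀ P' (mx (M' * M)) = (G : V →L[ℂ] V).comp (LL π₀ P (mx M)) := by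
    rw [LL, h2, clin_comp_left, LL]
  have h4 : ∀ w, LN π₀ G₀ P' (mx (M' * M)) (G w) = LN π₀ G₀ P (mx M) w := by
    intro w
    unfold LN
    rw [h3, ContinuousLinearMap.inverse_equiv_comp]
    simp
  have h5 : (fun u => LN π₀ G₀ P' (mx (M' * M)) (G (b u) + c)) =
      fun u => LN π₀ G₀ P (mx M) (b u) + LN π₀ G₀ P' (mx (M' * M)) c := by
    funext u
    rw [map_add, h4]
  rw [h5]
  exact hT.shift ((ContinuousLinearMap.contDiff _).contDiffAt.comp _ hb) _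

theorem gvl_shift (hT : IsTerm wt k T) {P : (Fin n → ℝ) ≃L[ℝ] V} (c : V) {b : (Fin d → ℂ) → V}
    {v : Fin d → ℂ} (hb : ContDiffAt ℂ ω b v) :
    gval Q π₀ G₀ T P (fun s => b s + c) v = gval Q π₀ G₀ T P b v := by
  unfold gval
  congr 1
  funext M
  have h5 : (fun u => LN π₀ G₀ P (mx M) (b u + c)) =
      fun u => LN π₀ G₀ P (mx M) (b u) + LN π₀ G₀ P (mx M) c := by
    funext u
    rw [map_add]
  rw [h5]
  exact hT.shift ((ContinuousLinearMap.contDiff _).contDiffAt.comp _ hb) _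

/-- bound of a term -/
theorem trm_bound {r R : ℝ} (hr : 0 < r) (hR : 0 ≤ R) (hT : IsTerm wt k T)
    (h₀ : IsPol Q π₀ G₀) :
    ∃ K : ℝ, 0 ≤ K ∧ ∀ (P : (Fin n → ℝ) ≃L[ℝ] V) (G : V ≃L[ℂ] V), IsPol Q P G →
      ∀ (b : (Fin d → ℂ) → V) (v₀ : Fin d → ℂ),
      DifferentiableOn ℂ b (ball v₀ r) →
      (∀ v ∈ ball v₀ r, ‖fderiv ℂ (fun u => G (b u)) v‖ ≤ R) → ∀ M : spq Q,
      ‖T (fun u => LN π₀ G₀ P (mx M) (b u)) v₀‖ ≤ K * (dl π₀ P G₀ G (mx M))⁻¹ ^ k := by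
  obtain ⟨K, hK0, hK⟩ := hT.bound r R hr hR
  refine ⟨K, hK0, fun P G hG b v₀ hb hm M => ?_⟩
  obtain ⟨C, hC1, hC2, hC3⟩ := LN_facts h₀ hG M
  have h1 : (fun u => LN π₀ G₀ P (mx M) (b u)) = fun u => C (G (b u)) := by
    funext u
    rw [hC3]
    rfl
  rw [h1, ← hC2]
  exact hK C hC1 (fun u => G (b u)) v₀
    ((G : V →L[ℂ] V).differentiable.comp_differentiableOn hb) hm

theorem gvl_bound (hn : 0 < n) {r R : ℝ} (hr : 0 < r) (hR : 0 ≤ R) (hT : IsTerm wt k T)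
    (hk : 2 * (n * n + 1) ≤ k) (h₀ : IsPol Q π₀ G₀) :
    ∃ K : ℝ, 0 ≤ K ∧ ∀ (P : (Fin n → ℝ) ≃L[ℝ] V) (G : V ≃L[ℂ] V), IsPol Q P G →
      ∀ (b : (Fin d → ℂ) → V) (v₀ : Fin d → ℂ),
      DifferentiableOn ℂ b (ball v₀ r) →
      (∀ v ∈ ball v₀ r, ‖fderiv ℂ (fun u => G (b u)) v‖ ≤ R) →
      ‖gval Q π₀ G₀ T P b v₀‖ ≤ K := by
  obtain ⟨K, hK0, hK⟩ := trm_bound (Q := Q) hr hR hT h₀
  refine ⟨K * |CP Q π₀ G₀|, by positivity, fun P G hG b v₀ hb hm => ?_⟩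
  have h1 := dl_sum hn (Nat.lt_succ_self (n * n)) h₀ hG
  have h2 : ∀ M : spq Q, ‖T (fun u => LN π₀ G₀ P (mx M) (b u)) v₀‖ ≤
      K * (dl π₀ P G₀ G (mx M))⁻¹ ^ (2 * (n * n + 1)) := fun M =>
    (hK P G hG b v₀ hb hm M).trans (mul_le_mul_of_nonneg_left (dl_pow_le h₀ hG hk M) hK0)
  have h3 := h1.1.mul_left K
  have h4 : Summable (fun M : spq Q => ‖T (fun u => LN π₀ G₀ P (mx M) (b u)) v₀‖) :=
    Summable.of_nonneg_of_le (fun M => norm_nonneg _) h2 h3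
  refine (norm_tsum_le_tsum_norm h4).trans ?_
  calc ∑' M : spq Q, ‖T (fun u => LN π₀ G₀ P (mx M) (b u)) v₀‖
      ≤ ∑' M : spq Q, K * (dl π₀ P G₀ G (mx M))⁻¹ ^ (2 * (n * n + 1)) :=
        h4.tsum_le_tsum h2 h3
    _ = K * ∑' M : spq Q, (dl π₀ P G₀ G (mx M))⁻¹ ^ (2 * (n * n + 1)) := tsum_mul_left
    _ ≤ K * |CP Q π₀ G₀| := mul_le_mul_of_nonneg_left (h1.2.trans (le_abs_self _)) hK0

variable {E : Type} [NormedAddCommGroup E] [NormedSpace ℂ E] [FiniteDimensional ℂ E]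

/-- The series is holomorphic. -/
theorem gvl_analytic (hn : 0 < n) (hk : n * n + 1 ≤ k) (hT : IsTerm wt k T)
    (h₀ : IsPol Q π₀ G₀) {U : Set E} (hU : IsOpen U) {P : E → ((Fin n → ℝ) ≃L[ℝ] V)}
    (hP : ∀ x, DifferentiableOn ℂ (fun z => P z x) U) (hpol : ∀ z ∈ U, ∃ G, IsPol Q (P z) G)
    {B : E × (Fin d → ℂ) → V} {x₀ : E × (Fin d → ℂ)} (hx₀ : x₀.1 ∈ U)
    (hB : ContDiffAt ℂ ω B x₀) :
    AnalyticAt ℂ (fun x : E × (Fin d → ℂ) =>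
      gval Q π₀ G₀ T (P x.1) (fun u => B (x.1, u)) x.2) x₀ := by
  have hcP : ContinuousAt (fun z => (P z : (Fin n → ℝ) →L[ℝ] V)) x₀.1 :=
    contAt_of_pointwise hU hP hx₀
  obtain ⟨C, hC0, hC⟩ := loc_bound h₀ hcP
  -- a ball on which `B` is analytic with bounded derivative
  have hfdc : ContinuousAt (fderiv ℂ B) x₀ :=
    (hB.fderiv_right (m := ω) (by simp)).continuousAt
  have hev : ∀ᶠ x in 𝓝 x₀, ContDiffAt ℂ ω B x ∧ ‖fderiv ℂ B x‖ < ‖fderiv ℂ B x₀‖ + 1 :=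
    (hB.eventually (by simp)).and (hfdc.norm.eventually_lt_const (by linarith))
  obtain ⟨δ, hδ, hball⟩ := Metric.eventually_nhds_iff_ball.1 hev
  set ρ := δ / 2 with hρ
  have hρ0 : 0 < ρ := by positivity
  set L : ℝ := ‖fderiv ℂ B x₀‖ + 1 with hL
  have hL0 : 0 ≤ L := by positivity
  have hR0 : 0 ≤ C * L := by positivity
  obtain ⟨K, hK0, hK⟩ := trm_bound (Q := Q) (π₀ := π₀) (G₀ := G₀) hρ0 hR0 hT h₀
  set g₀ : ℝ := C0 π₀ G₀ * C with hg₀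
  have hC00 : 0 ≤ C0 π₀ G₀ := by unfold C0; positivity
  -- the neighbourhood
  have hnear : ∀ᶠ x : E × (Fin d → ℂ) in 𝓝 x₀, x ∈ ball x₀ ρ ∧ x.1 ∈ U ∧
      ∀ G : V ≃L[ℂ] V, IsPol Q (P x.1) G →
      ‖(G : V →L[ℂ] V)‖ ≤ C ∧ ‖(G : V →L[ℂ] V).det‖ ≤ C ∧ dl π₀ (P x.1) G₀ G 1 ≤ C := by
    filter_upwards [ball_mem_nhds x₀ hρ0, continuousAt_fst.eventually (hU.mem_nhds hx₀),
      continuousAt_fst.eventually hC] with x h1 h2 h3 using ⟨h1, h2, h3⟩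
  obtain ⟨U', hU'1, hU'2, hU'3⟩ := _root_.eventually_nhds_iff.1 hnear
  have hpair : ∀ x ∈ U', ∀ u ∈ ball x.2 ρ, (x.1, u) ∈ ball x₀ δ := by
    intro x hx u hu
    have h1 := mem_ball.1 (hU'1 x hx).1
    have h2 := mem_ball.1 hu
    rw [mem_ball]
    have h3 : dist (x.1, u) x ≤ dist u x.2 := by
      rw [Prod.dist_eq]
      simp
    have h4 := dist_triangle (x.1, u) x x₀
    linarith
  have hslice : ∀ x ∈ U', ∀ u ∈ ball x.2 ρ, HasFDerivAt (fun u => B (x.1, u))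
      ((fderiv ℂ B (x.1, u)).comp (ContinuousLinearMap.inr ℂ E (Fin d → ℂ))) u := by
    intro x hx u hu
    have h2 : HasFDerivAt (fun u : Fin d → ℂ => (x.1, u))
        (ContinuousLinearMap.inr ℂ E (Fin d → ℂ)) u := hasFDerivAt_prodMk_right _ _
    have h4 : HasFDerivAt B (fderiv ℂ B (x.1, u)) (x.1, u) :=
      ((hball _ (hpair x hx u hu)).1.differentiableAt (by simp)).hasFDerivAt
    exact h4.comp u h2
  refine analyticAt_tsum (U := U') (u := fun M : spq Q => K * (g₀ * ‖mact (mx M)‖⁻¹) ^ k)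
    (hU'2.mem_nhds hU'3) (fun M x hx => ?_) ?_ (fun M x hx => ?_)
  · obtain ⟨G, hG⟩ := hpol x.1 (hU'1 x hx).2.1
    have h1 : ContDiffAt ℂ ω (fun z => LN π₀ G₀ (P z) (mx M)) x.1 :=
      LN_contDiffAt hU hP (hU'1 x hx).2.1 (dl_ne h₀ hG M)
    have h2 : ContDiffAt ℂ ω B x := by
      have := (hball _ (hpair x hx x.2 (mem_ball_self hρ0))).1
      exact this
    have h3 : ContDiffAt ℂ ω (fun y : E × (Fin d → ℂ) =>
        LN π₀ G₀ (P y.1) (mx M) (B y)) x :=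
      (h1.comp x contDiffAt_fst).clm_apply h2
    exact ((hT.joint _ x h3).differentiableAt (by simp)).differentiableWithinAt
  · have h1 : (fun M : spq Q => K * (g₀ * ‖mact (mx M)‖⁻¹) ^ k) =
        fun M : spq Q => (K * g₀ ^ k) * ‖mact (mx M)‖⁻¹ ^ k := by
      funext M
      rw [mul_pow, mul_assoc]
    rw [h1]
    exact (summable_mx hn (by omega)).mul_left _
  · obtain ⟨G, hG⟩ := hpol x.1 (hU'1 x hx).2.1
    obtain ⟨hG1, hG2, hG3⟩ := (hU'1 x hx).2.2 G hG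
    have h1 := hK (P x.1) G hG (fun u => B (x.1, u)) x.2
      (fun u hu => (hslice x hx u hu).differentiableAt.differentiableWithinAt)
      (fun u hu => by
        have h5 : HasFDerivAt (fun u => G (B (x.1, u))) ((G : V →L[ℂ] V).comp
            ((fderiv ℂ B (x.1, u)).comp (ContinuousLinearMap.inr ℂ E (Fin d → ℂ)))) u :=
          (G : V →L[ℂ] V).hasFDerivAt.comp u (hslice x hx u hu)
        rw [h5.fderiv]
        refine (ContinuousLinearMap.opNorm_comp_le _ _).trans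
          (mul_le_mul hG1 ?_ (norm_nonneg _) hC0)
        refine (ContinuousLinearMap.opNorm_comp_le _ _).trans ?_
        have h2 : ‖ContinuousLinearMap.inr ℂ E (Fin d → ℂ)‖ ≤ 1 :=
          ContinuousLinearMap.norm_inr_le_one ℂ E (Fin d → ℂ)
        have h3 := (hball _ (hpair x hx u hu)).2.le
        calc _ ≤ L * 1 := mul_le_mul h3 h2 (norm_nonneg _) hL0
          _ = L := mul_one _) M
    refine h1.trans (mul_le_mul_of_nonneg_left ?_ hK0)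
    have h2 := mact_le h₀ hG 1 M
    rw [inv_one, one_mul, mx_one] at h2
    have h3 := one_le_dl h₀ hG M
    have h4 := mact_mx_pos hn M
    have h7 : 0 ≤ (dl π₀ (P x.1) G₀ G (mx M))⁻¹ := inv_nonneg.2 (norm_nonneg _)
    refine pow_le_pow_left₀ h7 ?_ k
    rw [← div_eq_mul_inv, inv_eq_one_div, div_le_div_iff₀ (by linarith) h4, one_mul]
    refine h2.trans ?_
    rw [hg₀, mul_assoc]
    gcongr

end Val

end Vale.Agent.P281.H349.U
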